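import Vale.Agent.P012.Defs

/-!
Selection lemma, and the Chebyshev lower bound at powers of two.
-/

namespace P012

lemma sum_inv_cube_half (W : Finset ℕ) (hW : ∀ w ∈ W, 2 ≤ w) :
    ∑ w ∈ W, (1 : ℚ) / (w : ℚ) ^ 3 ≤ 1 / 2 := by
  have key : ∀ n : ℕ, ∑ w ∈ Finset.Ico 2 (n + 2), (1 : ℚ) / (w : ℚ) ^ 3 ≤
      1 / 2 * (1 - 1 / ((n : ℚ) + 1)) := by
    intro n
    induction n with
    | zero => simp
    | succ n ih =>
      rw [Finset.sum_Ico_succ_top (by omega)]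
      have h1 : (1 : ℚ) / ((n + 2 : ℕ) : ℚ) ^ 3 ≤ 1 / 2 * (1 / ((n : ℚ) + 1) - 1 / ((n : ℚ) + 2)) := by
        have hn : (0 : ℚ) ≤ n := Nat.cast_nonneg n
        rw [div_sub_div _ _ (by positivity) (by positivity), one_div_mul_eq_div, div_div,
          div_le_div_iff₀ (by positivity) (by positivity)]
        push_cast
        nlinarith [sq_nonneg ((n : ℚ)), sq_nonneg ((n : ℚ) + 2)]
      have h2 : (((n + 1 : ℕ) : ℚ) + 1) = (n : ℚ) + 2 := by push_cast; ring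
      rw [h2]
      linarith
  obtain ⟨n, hn⟩ : ∃ n : ℕ, W ⊆ Finset.Ico 2 (n + 2) := by
    refine ⟨W.sup id, fun w hw => ?_⟩
    rw [Finset.mem_Ico]
    refine ⟨hW w hw, ?_⟩
    have : w ≤ W.sup id := Finset.le_sup (f := id) hw
    omega
  calc ∑ w ∈ W, (1 : ℚ) / (w : ℚ) ^ 3 ≤ ∑ w ∈ Finset.Ico 2 (n + 2), (1 : ℚ) / (w : ℚ) ^ 3 :=
        Finset.sum_le_sum_of_subset_of_nonneg hn (fun _ _ _ => by positivity)
    _ ≤ 1 / 2 * (1 - 1 / ((n : ℚ) + 1)) := key n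
    _ ≤ 1 / 2 := by
      have : (0 : ℚ) ≤ 1 / ((n : ℚ) + 1) := by positivity
      linarith

/-- Purely numerical selection lemma: if the bad sets are small, some tuple avoids them all. -/
lemma exists_avoid {Ω : Type*} [DecidableEq Ω] (A : Finset Ω) (hA : A.Nonempty) (W : Finset ℕ)
    (hW : ∀ w ∈ W, 2 ≤ w) (B : ℕ → Finset Ω)
    (hsmall : ∀ w ∈ W, (B w).card ^ 20 * w ≤ A.card ^ 20) :
    ∃ g : Fin 60 → Ω, (∀ h, g h ∈ A) ∧ ∀ w ∈ W, ∃ h, g h ∉ B w := by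
  by_contra hcon
  push Not at hcon
  have hsub : Fintype.piFinset (fun _ : Fin 60 => A) ⊆
      W.biUnion fun w => Fintype.piFinset (fun _ : Fin 60 => B w) := by
    intro g hg
    rw [Fintype.mem_piFinset] at hg
    obtain ⟨w, hw, hwB⟩ := hcon g hg
    rw [Finset.mem_biUnion]
    exact ⟨w, hw, by rw [Fintype.mem_piFinset]; exact hwB⟩
  have hcard : A.card ^ 60 ≤ ∑ w ∈ W, (B w).card ^ 60 := by
    calc A.card ^ 60 = (Fintype.piFinset (fun _ : Fin 60 => A)).card := by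
          rw [Fintype.card_piFinset]; simp
      _ ≤ (W.biUnion fun w => Fintype.piFinset (fun _ : Fin 60 => B w)).card :=
          Finset.card_le_card hsub
      _ ≤ ∑ w ∈ W, (Fintype.piFinset (fun _ : Fin 60 => B w)).card := Finset.card_biUnion_le
      _ = ∑ w ∈ W, (B w).card ^ 60 := by
          refine Finset.sum_congr rfl fun w _ => ?_
          rw [Fintype.card_piFinset]; simp
  have hApos : 0 < A.card := Finset.card_pos.mpr hA
  have h1 : (A.card : ℚ) ^ 60 ≤ ∑ w ∈ W, ((B w).card : ℚ) ^ 60 := by exact_mod_cast hcard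
  have h2 : ∀ w ∈ W, ((B w).card : ℚ) ^ 60 ≤ (A.card : ℚ) ^ 60 * (1 / (w : ℚ) ^ 3) := by
    intro w hw
    have hw2 : (0 : ℚ) < w := by
      have := hW w hw
      have : 0 < w := by omega
      exact_mod_cast this
    have h3 : ((B w).card : ℚ) ^ 20 * w ≤ (A.card : ℚ) ^ 20 := by exact_mod_cast hsmall w hw
    have h4 : (((B w).card : ℚ) ^ 20 * w) ^ 3 ≤ ((A.card : ℚ) ^ 20) ^ 3 :=
      pow_le_pow_left₀ (by positivity) h3 3
    rw [mul_one_div, le_div_iff₀ (by positivity)]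
    calc ((B w).card : ℚ) ^ 60 * (w : ℚ) ^ 3 = (((B w).card : ℚ) ^ 20 * w) ^ 3 := by ring
      _ ≤ ((A.card : ℚ) ^ 20) ^ 3 := h4
      _ = (A.card : ℚ) ^ 60 := by ring
  have h5 : (A.card : ℚ) ^ 60 ≤ (A.card : ℚ) ^ 60 * (1 / 2) := by
    calc (A.card : ℚ) ^ 60 ≤ ∑ w ∈ W, ((B w).card : ℚ) ^ 60 := h1
      _ ≤ ∑ w ∈ W, (A.card : ℚ) ^ 60 * (1 / (w : ℚ) ^ 3) := Finset.sum_le_sum h2
      _ = (A.card : ℚ) ^ 60 * ∑ w ∈ W, (1 / (w : ℚ) ^ 3) := by rw [Finset.mul_sum]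
      _ ≤ (A.card : ℚ) ^ 60 * (1 / 2) :=
        mul_le_mul_of_nonneg_left (sum_inv_cube_half W hW) (by positivity)
  have h6 : (0 : ℚ) < (A.card : ℚ) ^ 60 := by
    have : (0 : ℚ) < A.card := by exact_mod_cast hApos
    positivity
  linarith

/-- Chebyshev's lower bound at `2 ^ a`. -/
lemma two_pow_le_mul_primeCounting (a : ℕ) (ha : 1 ≤ a) :
    2 ^ a ≤ a * Nat.primeCounting (2 ^ a) + a + 1 := by
  have h := Chebyshev.pi_ge (2 ^ a)
  have hlog2 : 0 < Real.log 2 := Real.log_pos (by norm_num)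
  have h1 : Real.log ((2 ^ a : ℕ) : ℝ) = a * Real.log 2 := by
    push_cast; rw [Real.log_pow]
  have h2 : Real.log (((2 ^ a : ℕ) : ℝ) + 1) ≤ (a + 1) * Real.log 2 := by
    have h3 : (((2 ^ a : ℕ) : ℝ) + 1) ≤ 2 ^ (a + 1) := by
      push_cast
      have : (1 : ℝ) ≤ 2 ^ a := one_le_pow₀ (by norm_num)
      rw [pow_succ]; linarith
    calc Real.log (((2 ^ a : ℕ) : ℝ) + 1) ≤ Real.log (2 ^ (a + 1)) :=
          Real.log_le_log (by positivity) h3
      _ = (a + 1) * Real.log 2 := by rw [Real.log_pow]; push_cast; ring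
  rw [h1] at h
  have ha0 : (0 : ℝ) < a := by exact_mod_cast ha
  rw [div_le_iff₀ (by positivity)] at h
  have h4 : ((2 ^ a : ℕ) : ℝ) * Real.log 2 ≤
      (a * (Nat.primeCounting (2 ^ a) : ℝ) + a + 1) * Real.log 2 := by
    nlinarith
  have h5 : ((2 ^ a : ℕ) : ℝ) ≤ a * (Nat.primeCounting (2 ^ a) : ℝ) + a + 1 :=
    le_of_mul_le_mul_right h4 hlog2
  exact_mod_cast h5

lemma card_primeFactors_le {w s : ℕ} (hw : 0 < w) (h : w ≤ 2 ^ s) : w.primeFactors.card ≤ s := by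
  have h1 : 2 ^ w.primeFactors.card ≤ ∏ p ∈ w.primeFactors, p := by
    rw [← Finset.prod_const]
    exact Finset.prod_le_prod' fun p hp => (Nat.prime_of_mem_primeFactors hp).two_le
  have h2 : ∏ p ∈ w.primeFactors, p ≤ w := Nat.le_of_dvd hw (Nat.prod_primeFactors_dvd w)
  exact (Nat.pow_le_pow_iff_right (by norm_num)).mp (h1.trans (h2.trans h))

end P012
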