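import Vale.Agent.P012.Coll

/-!
Random blocks: `g : Fin L → ℕ × ℕ` is a choice of `L` pairs of primes, and
`blk g ε` is the product obtained by picking one prime of every pair.
-/

namespace P012

/-- Product of one element of each pair. -/
def blk {L : ℕ} (g : Fin L → ℕ × ℕ) (ε : Fin L → Bool) : ℕ :=
  ∏ l, if ε l then (g l).2 else (g l).1

/-- the choice from a pair -/
def pick {α : Type} (b : Bool) (p : α × α) : α := if b then p.2 else p.1

lemma pick_inj {α : Type} {b b' : Bool} (h : b ≠ b') {p q : α × α}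
    (h1 : pick b p = pick b q) (h2 : pick b' p = pick b' q) : p = q := by
  obtain ⟨p1, p2⟩ := p
  obtain ⟨q1, q2⟩ := q
  cases b <;> cases b' <;> simp_all [pick]

/-- block product of a family of pairs of elements of `S` -/
def bs {L : ℕ} {S : Finset ℕ} (g : Fin L → S × S) (ε : Fin L → Bool) : ℕ :=
  ∏ l, ((pick (ε l) (g l) : S) : ℕ)

lemma pair_count (S : Finset ℕ) (hS : ∀ p ∈ S, p.Prime) (G w m L : ℕ)
    (hG : ∀ p ∈ S, p ≤ G) (hcop : ∀ p ∈ S, Nat.Coprime p w) (hw : G ^ m < w)
    (ε ε' : Fin L → Bool) (Δ : Finset (Fin L)) (hΔ : Δ.card = m) (hd : ∀ l ∈ Δ, ε l ≠ ε' l) :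
    (Finset.univ.filter fun g : Fin L → S × S => bs g ε ≡ bs g ε' [MOD w]).card ≤
      m.factorial * S.card ^ m * S.card ^ (2 * (L - m)) := by
  classical
  have hw0 : 0 < w := lt_of_le_of_lt (Nat.zero_le _) hw
  let C : (Fin L → Bool) → ({l : Fin L // l ∉ Δ} → S × S) → ℕ := fun ε h =>
    ∏ l : {l : Fin L // l ∉ Δ}, ((pick (ε l) (h l) : S) : ℕ)
  have hC : ∀ ε h, Nat.Coprime (C ε h) w := fun ε h =>
    Nat.Coprime.prod_left fun l _ => hcop _ (pick (ε l) (h l)).2
  have hsplit : ∀ (g : Fin L → S × S) (ε : Fin L → Bool),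
      bs g ε = C ε (fun l => g l) * ∏ l : Δ, ((pick (ε l) (g l) : S) : ℕ) := by
    intro g ε
    have hA := Finset.prod_coe_sort Δ (fun l => ((pick (ε l) (g l) : S) : ℕ))
    have hB : ∏ l ∈ Δᶜ, ((pick (ε l) (g l) : S) : ℕ) =
        ∏ l : {l : Fin L // l ∉ Δ}, ((pick (ε l) (g l) : S) : ℕ) :=
      Finset.prod_subtype (p := fun l => l ∉ Δ) Δᶜ (by simp)
        (fun l => ((pick (ε l) (g l) : S) : ℕ))
    have hAB := Finset.prod_mul_prod_compl Δ (fun l => ((pick (ε l) (g l) : S) : ℕ))
    show bs g ε = (∏ l : {l : Fin L // l ∉ Δ}, ((pick (ε l) (g l) : S) : ℕ)) *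
      ∏ l : Δ, ((pick (ε l) (g l) : S) : ℕ)
    rw [hA, ← hB, mul_comm]
    exact hAB.symm
  let T : Finset ((({l : Fin L // l ∉ Δ} → S × S)) × ((Δ → S) × (Δ → S))) :=
    Finset.univ.filter fun q => C ε q.1 * ∏ l, (q.2.1 l : ℕ) ≡ C ε' q.1 * ∏ l, (q.2.2 l : ℕ) [MOD w]
  have h1 : (Finset.univ.filter fun g : Fin L → S × S => bs g ε ≡ bs g ε' [MOD w]).card ≤
      T.card := by
    refine Finset.card_le_card_of_injOn (fun g => (fun l => g l,
      (fun l => pick (ε l) (g l), fun l => pick (ε' l) (g l)))) ?_ ?_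
    · intro g hg
      simp only [Finset.coe_filter, Finset.mem_univ, true_and, Set.mem_ofPred_eq, T] at hg ⊢
      rw [hsplit, hsplit] at hg
      exact hg
    · intro g _ g' _ h
      simp only [Prod.mk.injEq] at h
      obtain ⟨h1, h2, h3⟩ := h
      funext l
      by_cases hl : l ∈ Δ
      · exact pick_inj (hd l hl) (congrFun h2 ⟨l, hl⟩) (congrFun h3 ⟨l, hl⟩)
      · exact congrFun h1 ⟨l, hl⟩
  have h2 : T.card ≤ Fintype.card ({l : Fin L // l ∉ Δ} → S × S) *
      (m.factorial * S.card ^ m) := by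
    rw [Finset.card_eq_sum_card_fiberwise
      (f := fun p : (({l : Fin L // l ∉ Δ} → S × S)) × ((Δ → S) × (Δ → S)) => p.1)
      (t := Finset.univ) (fun p _ => Finset.mem_coe.2 (Finset.mem_univ _))]
    refine le_trans (Finset.sum_le_card_nsmul _ _ (m.factorial * S.card ^ m) ?_) ?_
    · intro h _
      have h4 := coll_prime_prod_le (δ := Δ) S hS G w hG
        (by rwa [Fintype.card_coe, hΔ])
      rw [Fintype.card_coe, hΔ] at h4
      refine le_trans ?_ h4
      refine le_trans ?_ (card_twist_le w (C ε h) (C ε' h) hw0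
        (fun x : Δ → S => ∏ l, (x l : ℕ)) (hC _ _) (hC _ _))
      refine Finset.card_le_card_of_injOn (fun p => p.2) ?_ ?_
      · intro p hp
        simp only [Finset.coe_filter, Finset.mem_filter, Finset.mem_univ, true_and,
          Set.mem_ofPred_eq, T] at hp ⊢
        rw [← hp.2]
        exact hp.1
      · rintro ⟨a, b⟩ hp ⟨a', b'⟩ hp' h
        simp only [Finset.coe_filter, Finset.mem_filter, Finset.mem_univ, true_and,
          Set.mem_ofPred_eq, Prod.mk.injEq, T] at hp hp' h ⊢
        exact ⟨hp.2.trans hp'.2.symm, h⟩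
    · rw [Finset.card_univ, smul_eq_mul]
  refine h1.trans (h2.trans (le_of_eq ?_))
  rw [Fintype.card_fun, Fintype.card_prod, Fintype.card_coe]
  have h5 : Fintype.card {l : Fin L // l ∉ Δ} = L - m := by
    rw [Fintype.card_subtype_compl, Fintype.card_fin, Fintype.card_coe, hΔ]
  rw [h5, ← sq, ← pow_mul]
  ring

lemma sum_pow_le (L m : ℕ) : ∑ k ∈ Finset.range m, L ^ k ≤ (L + 1) ^ m := by
  induction m with
  | zero => simp
  | succ m ih =>
    have h1 : ∑ k ∈ Finset.range (m + 1), L ^ k = 1 + L * ∑ k ∈ Finset.range m, L ^ k := by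
      rw [Finset.sum_range_succ', Finset.mul_sum, add_comm]
      simp [pow_succ, mul_comm]
    rw [h1, pow_succ]
    have h2 : 1 ≤ (L + 1) ^ m := Nat.one_le_pow _ _ (Nat.succ_pos _)
    nlinarith

lemma card_small_subsets (L m : ℕ) :
    (Finset.univ.filter fun Δ : Finset (Fin L) => Δ.card < m).card ≤ (L + 1) ^ m := by
  classical
  rw [Finset.card_eq_sum_card_fiberwise (f := Finset.card) (t := Finset.range m)
    (fun Δ h => by simpa using h)]
  refine le_trans (Finset.sum_le_sum fun k hk => ?_) (sum_pow_le L m)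
  refine le_trans (b := (Finset.powersetCard k (Finset.univ : Finset (Fin L))).card) ?_ ?_
  · refine Finset.card_le_card fun Δ h => ?_
    simp only [Finset.mem_filter, Finset.mem_univ, true_and] at h
    exact Finset.mem_powersetCard.2 ⟨Finset.subset_univ _, h.2⟩
  · rw [Finset.card_powersetCard, Finset.card_univ, Fintype.card_fin]
    exact Nat.choose_le_pow _ _

/-- number of pairs of sign vectors at small distance -/
lemma card_close_pairs (L m : ℕ) :
    (Finset.univ.filter fun q : (Fin L → Bool) × (Fin L → Bool) =>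
      (Finset.univ.filter fun l => q.1 l ≠ q.2 l).card < m).card ≤ 2 ^ L * (L + 1) ^ m := by
  classical
  have h1 : ((Finset.univ : Finset (Fin L → Bool)) ×ˢ
      (Finset.univ.filter fun Δ : Finset (Fin L) => Δ.card < m)).card ≤ 2 ^ L * (L + 1) ^ m := by
    rw [Finset.card_product, Finset.card_univ, Fintype.card_fun, Fintype.card_bool,
      Fintype.card_fin]
    exact Nat.mul_le_mul_left _ (card_small_subsets L m)
  refine le_trans ?_ h1
  refine Finset.card_le_card_of_injOn
    (fun q => (q.1, Finset.univ.filter fun l => q.1 l ≠ q.2 l)) ?_ ?_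
  · intro q hq
    simp only [Finset.coe_filter, Finset.mem_univ, true_and, Set.mem_ofPred_eq,
      Finset.coe_product, Set.mem_prod, Finset.mem_coe] at hq ⊢
    simpa using hq
  · rintro ⟨a, b⟩ _ ⟨a', b'⟩ _ h
    simp only [Prod.mk.injEq] at h ⊢
    obtain ⟨rfl, h⟩ := h
    refine ⟨rfl, ?_⟩
    funext l
    have := congrArg (fun s => l ∈ s) h
    simp only [Finset.mem_filter, Finset.mem_univ, true_and, eq_iff_iff] at this
    cases h1 : a l <;> cases h2 : b l <;> cases h3 : b' l <;> simp_all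

/-- First moment bound: the average over all choices of pairs from `S` of the number of
collisions modulo `w` of the `2 ^ L` block products. -/
theorem sum_coll_blk_le (S : Finset ℕ) (hS : ∀ p ∈ S, p.Prime) (G w m L : ℕ)
    (hG : ∀ p ∈ S, p ≤ G) (hcop : ∀ p ∈ S, Nat.Coprime p w) (hw : G ^ m < w) (hm : m ≤ L) :
    S.card ^ m * ∑ g ∈ Fintype.piFinset (fun _ : Fin L => S ×ˢ S), Coll w (blk g) ≤
      S.card ^ (2 * L) *
        (2 ^ L * (L + 1) ^ m * S.card ^ m + 4 ^ L * m.factorial) := by
  classical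
  have h1 : ∑ g ∈ Fintype.piFinset (fun _ : Fin L => S ×ˢ S), Coll w (blk g) =
      ∑ g : Fin L → S × S, Coll w (bs g) := by
    symm
    refine Finset.sum_bij (fun g _ => fun l => (((g l).1 : ℕ), ((g l).2 : ℕ))) ?_ ?_ ?_ ?_
    · intro g _
      rw [Fintype.mem_piFinset]
      intro l
      exact Finset.mem_product.2 ⟨(g l).1.2, (g l).2.2⟩
    · intro g _ g' _ h
      funext l
      have := congrFun h l
      simp only [Prod.mk.injEq] at this
      exact Prod.ext (Subtype.ext this.1) (Subtype.ext this.2)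
    · intro g hg
      rw [Fintype.mem_piFinset] at hg
      refine ⟨fun l => (⟨(g l).1, (Finset.mem_product.1 (hg l)).1⟩,
        ⟨(g l).2, (Finset.mem_product.1 (hg l)).2⟩), Finset.mem_univ _, rfl⟩
    · intro g _
      congr 1
      funext ε
      unfold bs blk pick
      refine Finset.prod_congr rfl fun l _ => ?_
      split_ifs <;> rfl
  have h2 : ∑ g : Fin L → S × S, Coll w (bs g) =
      ∑ q : (Fin L → Bool) × (Fin L → Bool),
        (Finset.univ.filter fun g : Fin L → S × S => bs g q.1 ≡ bs g q.2 [MOD w]).card := by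
    unfold Coll
    simp_rw [Finset.card_filter]
    rw [Finset.sum_comm]
  rw [h1, h2, ← Finset.sum_filter_add_sum_filter_not Finset.univ
    (fun q : (Fin L → Bool) × (Fin L → Bool) =>
      (Finset.univ.filter fun l => q.1 l ≠ q.2 l).card < m)]
  have h3 : ∑ q ∈ Finset.univ.filter (fun q : (Fin L → Bool) × (Fin L → Bool) =>
      (Finset.univ.filter fun l => q.1 l ≠ q.2 l).card < m),
        (Finset.univ.filter fun g : Fin L → S × S => bs g q.1 ≡ bs g q.2 [MOD w]).card ≤
      2 ^ L * (L + 1) ^ m * S.card ^ (2 * L) := by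
    refine le_trans (Finset.sum_le_card_nsmul _ _ (S.card ^ (2 * L)) fun q _ => ?_) ?_
    · refine (Finset.card_le_univ _).trans (le_of_eq ?_)
      rw [Fintype.card_fun, Fintype.card_prod, Fintype.card_coe, Fintype.card_fin, ← sq,
        ← pow_mul]
    · rw [smul_eq_mul]
      exact Nat.mul_le_mul_right _ (card_close_pairs L m)
  have h4 : S.card ^ m * ∑ q ∈ Finset.univ.filter (fun q : (Fin L → Bool) × (Fin L → Bool) =>
      ¬ (Finset.univ.filter fun l => q.1 l ≠ q.2 l).card < m),
        (Finset.univ.filter fun g : Fin L → S × S => bs g q.1 ≡ bs g q.2 [MOD w]).card ≤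
      4 ^ L * (m.factorial * S.card ^ (2 * L)) := by
    rw [Finset.mul_sum]
    refine le_trans (Finset.sum_le_card_nsmul _ _ (m.factorial * S.card ^ (2 * L))
      fun q hq => ?_) ?_
    · simp only [Finset.mem_filter, Finset.mem_univ, true_and, not_lt] at hq
      obtain ⟨Δ, hΔ, hc⟩ := Finset.exists_subset_card_eq hq
      have := pair_count S hS G w m L hG hcop hw q.1 q.2 Δ hc
        (fun l hl => (Finset.mem_filter.1 (hΔ hl)).2)
      refine (Nat.mul_le_mul_left _ this).trans (le_of_eq ?_)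
      have h5 : 2 * L = m + (m + 2 * (L - m)) := by omega
      rw [h5, pow_add, pow_add]
      ring
    · rw [smul_eq_mul]
      refine Nat.mul_le_mul_right _ ?_
      refine (Finset.card_le_univ _).trans (le_of_eq ?_)
      rw [Fintype.card_prod, Fintype.card_fun, Fintype.card_bool, Fintype.card_fin,
        ← mul_pow]
      norm_num
  rw [mul_add]
  calc _ ≤ S.card ^ m * (2 ^ L * (L + 1) ^ m * S.card ^ (2 * L)) +
        4 ^ L * (m.factorial * S.card ^ (2 * L)) :=
        Nat.add_le_add (Nat.mul_le_mul_left _ h3) h4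
    _ = _ := by ring

end P012
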