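import Vale.Agent.P012.Coll
import Vale.Agent.P012.Avoid

/-!
Small moduli: products of 2000 primes up to `2 ^ q`.
-/

namespace P012

/-- primes up to `2 ^ q` -/
def S0 (q : ℕ) : Finset ℕ := (Finset.range (2 ^ q + 1)).filter Nat.Prime

lemma mem_S0 {q p : ℕ} : p ∈ S0 q ↔ p ≤ 2 ^ q ∧ p.Prime := by
  simp [S0, Nat.lt_succ_iff]

lemma card_S0 (q : ℕ) : (S0 q).card = Nat.primeCounting (2 ^ q) := by
  rw [S0, Nat.primeCounting, Nat.primeCounting', Nat.count_eq_card_filter_range]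

lemma caseA_num {q : ℕ} (h1 : (4000 * q) ^ 40 ≤ 2 ^ (7 * q)) {j : ℕ} (hj : 10 ≤ j) :
    (4000 * q) ^ (4 * j) ≤ 2 ^ (q * (j - 3)) := by
  have h2 : ((4000 * q) ^ (4 * j)) ^ 10 ≤ (2 ^ (q * (j - 3))) ^ 10 := by
    calc ((4000 * q) ^ (4 * j)) ^ 10 = ((4000 * q) ^ 40) ^ j := by
          rw [← pow_mul, ← pow_mul]; congr 1; ring
      _ ≤ (2 ^ (7 * q)) ^ j := Nat.pow_le_pow_left h1 _
      _ = 2 ^ (7 * q * j) := by rw [← pow_mul]
      _ ≤ 2 ^ (q * (j - 3) * 10) := by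
        refine Nat.pow_le_pow_right (by norm_num) ?_
        calc 7 * q * j = q * (7 * j) := by ring
          _ ≤ q * ((j - 3) * 10) := Nat.mul_le_mul_left _ (by omega)
          _ = q * (j - 3) * 10 := by ring
      _ = (2 ^ (q * (j - 3))) ^ 10 := by rw [← pow_mul]
  exact (Nat.pow_le_pow_iff_left (by norm_num)).mp h2

lemma caseA {q : ℕ} (hq : 1 ≤ q) (h1 : (4000 * q) ^ 40 ≤ 2 ^ (7 * q)) (h2 : 2 * (q + 1) ≤ 2 ^ q)
    {w : ℕ} (hw1 : 2 ^ (10 * q) < w) (hw2 : w ≤ 2 ^ (2001 * q))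
    (hcop : ∀ p ∈ S0 q, Nat.Coprime p w) :
    Coll w (fun x : Fin 2000 → S0 q => ∏ l, (x l : ℕ)) ^ 4 * w ^ 3 ≤
      Fintype.card (Fin 2000 → S0 q) ^ 8 := by
  classical
  set N := (S0 q).card with hN
  -- choice of `j`
  have hex : ∃ j, w ≤ 2 ^ (q * (j + 1)) := ⟨2000, by
    refine hw2.trans (Nat.pow_le_pow_right (by norm_num) ?_); omega⟩
  obtain ⟨j, hj1, hj2, hj10, hj2000⟩ : ∃ j, 2 ^ (q * j) < w ∧ w ≤ 2 ^ (q * (j + 1)) ∧
      10 ≤ j ∧ j ≤ 2000 := by
    have hle : Nat.find hex ≤ 2000 := Nat.find_min' hex (by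
      refine hw2.trans (Nat.pow_le_pow_right (by norm_num) ?_); omega)
    have hsp := Nat.find_spec hex
    have hge : 10 ≤ Nat.find hex := by
      by_contra hlt
      push Not at hlt
      have h3 : w ≤ 2 ^ (10 * q) := hsp.trans (Nat.pow_le_pow_right (by norm_num) (by
        calc q * (Nat.find hex + 1) ≤ q * 10 := Nat.mul_le_mul_left _ (by omega)
          _ = 10 * q := by ring))
      omega
    refine ⟨Nat.find hex, ?_, hsp, hge, hle⟩
    have hmin := Nat.find_min hex (m := Nat.find hex - 1) (by omega)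
    push Not at hmin
    have : Nat.find hex - 1 + 1 = Nat.find hex := by omega
    rwa [this] at hmin
  have hcoll := coll_prime_prod_le' (S0 q) (fun p hp => (mem_S0.mp hp).2) (2 ^ q) w j 2000
    (fun p hp => (mem_S0.mp hp).1) hj2000 (by rw [← pow_mul]; exact hj1) hcop
  rw [← hN] at hcoll
  -- lower bound for `N`
  have hNq : 2 ^ q ≤ 2 * q * N := by
    have h3 := two_pow_le_mul_primeCounting q hq
    rw [← card_S0, ← hN] at h3
    have : 2 * q * N = 2 * (q * N) := by ring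
    omega
  have hNpos : 0 < N := by
    rcases Nat.eq_zero_or_pos N with h | h
    · rw [h] at hNq; have : 0 < 2 ^ q := by positivity
      omega
    · exact h
  have hkey : j.factorial ^ 4 * w ^ 3 ≤ N ^ (4 * j) := by
    have h3 : (j.factorial ^ 4 * w ^ 3) * (2 * q) ^ (4 * j) ≤ N ^ (4 * j) * (2 * q) ^ (4 * j) := by
      calc (j.factorial ^ 4 * w ^ 3) * (2 * q) ^ (4 * j)
          ≤ ((2000 ^ j) ^ 4 * (2 ^ (q * (j + 1))) ^ 3) * (2 * q) ^ (4 * j) := by
            refine Nat.mul_le_mul_right _ (Nat.mul_le_mul ?_ (Nat.pow_le_pow_left hj2 3))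
            refine Nat.pow_le_pow_left ?_ 4
            calc j.factorial ≤ j ^ j := Nat.factorial_le_pow j
              _ ≤ 2000 ^ j := Nat.pow_le_pow_left hj2000 j
        _ = (4000 * q) ^ (4 * j) * 2 ^ (q * (j + 1) * 3) := by
            have : (4000 * q) = 2000 * (2 * q) := by ring
            rw [this, mul_pow 2000 (2 * q), ← pow_mul, ← pow_mul, mul_comm 4 j]
            ring
        _ ≤ 2 ^ (q * (j - 3)) * 2 ^ (q * (j + 1) * 3) := Nat.mul_le_mul_right _ (caseA_num h1 hj10)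
        _ = (2 ^ q) ^ (4 * j) := by
            rw [← pow_add, ← pow_mul]
            congr 1
            obtain ⟨i, rfl⟩ : ∃ i, j = i + 3 := ⟨j - 3, by omega⟩
            simp only [Nat.add_sub_cancel]
            ring
        _ ≤ (2 * q * N) ^ (4 * j) := Nat.pow_le_pow_left hNq _
        _ = N ^ (4 * j) * (2 * q) ^ (4 * j) := by rw [mul_pow (2 * q) N, mul_comm]
    exact Nat.le_of_mul_le_mul_right h3 (by positivity)
  obtain ⟨X, hX⟩ : ∃ X, X = N ^ 2000 := ⟨_, rfl⟩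
  have hX2 : N ^ (2 * 2000) = X ^ 2 := by rw [hX, ← pow_mul]
  have hcardF : Fintype.card (Fin 2000 → S0 q) = X := by
    rw [Fintype.card_fun, Fintype.card_fin, Fintype.card_coe, hX]
  rw [hcardF]
  rw [hX2] at hcoll
  generalize Coll w (fun x : Fin 2000 → S0 q => ∏ l, (x l : ℕ)) = c at hcoll ⊢
  have h4 : (c ^ 4 * w ^ 3) * N ^ (4 * j) ≤ X ^ 8 * N ^ (4 * j) := by
    calc (c ^ 4 * w ^ 3) * N ^ (4 * j) = (c * N ^ j) ^ 4 * w ^ 3 := by
          rw [mul_pow, ← pow_mul, mul_comm j 4]; ring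
      _ ≤ (j.factorial * X ^ 2) ^ 4 * w ^ 3 :=
          Nat.mul_le_mul_right _ (Nat.pow_le_pow_left hcoll 4)
      _ = X ^ 8 * (j.factorial ^ 4 * w ^ 3) := by ring
      _ ≤ X ^ 8 * N ^ (4 * j) := Nat.mul_le_mul_left _ hkey
  exact Nat.le_of_mul_le_mul_right h4 (Nat.pow_pos hNpos)

end P012
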