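import Vale.Agent.P012.Blocks
import Vale.Agent.P012.Avoid

/-!
Large moduli: random blocks of primes in `(2 ^ (50 q), 2 ^ (100 q)]`.
-/

namespace P012

/-- primes in `(2 ^ (50 q), 2 ^ (100 q)]` -/
def S1 (q : ℕ) : Finset ℕ := (Finset.Ioc (2 ^ (50 * q)) (2 ^ (100 * q))).filter Nat.Prime

lemma mem_S1 {q p : ℕ} : p ∈ S1 q ↔ (2 ^ (50 * q) < p ∧ p ≤ 2 ^ (100 * q)) ∧ p.Prime := by
  simp [S1]

lemma card_S1_coprime {q w : ℕ} (hq : 1 ≤ q) (h : 500 * q ≤ 2 ^ q) (hw : 0 < w)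
    (hw2 : w ≤ 2 ^ (2 ^ (10 * q + 13))) :
    2 ^ (99 * q) ≤ ((S1 q).filter fun p => Nat.Coprime p w).card := by
  classical
  by_contra hlt
  push Not at hlt
  have h1 := two_pow_le_mul_primeCounting (100 * q) (by omega)
  have h2 : Nat.primeCounting (2 ^ (100 * q)) ≤
      ((S1 q).filter fun p => Nat.Coprime p w).card + w.primeFactors.card +
        (2 ^ (50 * q) + 1) := by
    rw [Nat.primeCounting, Nat.primeCounting', Nat.count_eq_card_filter_range]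
    calc ((Finset.range (2 ^ (100 * q) + 1)).filter Nat.Prime).card
        ≤ (((S1 q).filter fun p => Nat.Coprime p w) ∪ w.primeFactors ∪
          Finset.range (2 ^ (50 * q) + 1)).card := by
          refine Finset.card_le_card fun p hp => ?_
          rw [Finset.mem_filter, Finset.mem_range] at hp
          rw [Finset.mem_union, Finset.mem_union, Finset.mem_filter, Finset.mem_range, mem_S1,
            Nat.mem_primeFactors_of_ne_zero hw.ne']
          by_cases h3 : p ≤ 2 ^ (50 * q)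
          · right; omega
          · left
            by_cases h4 : Nat.Coprime p w
            · left; exact ⟨⟨⟨by omega, by omega⟩, hp.2⟩, h4⟩
            · right
              refine ⟨hp.2, ?_⟩
              by_contra h5
              exact h4 ((Nat.Prime.coprime_iff_not_dvd hp.2).mpr h5)
      _ ≤ _ := by
          refine (Finset.card_union_le _ _).trans ?_
          rw [Finset.card_range]
          exact Nat.add_le_add_right (Finset.card_union_le _ _) _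
  have h3 := card_primeFactors_le hw hw2
  set N' := ((S1 q).filter fun p => Nat.Coprime p w).card with hN'
  set Y := 2 ^ (99 * q) with hY
  set Z := 2 ^ (50 * q) with hZ
  have hZ1 : 1 ≤ Z := Nat.one_le_two_pow
  have hs : 2 ^ (10 * q + 13) ≤ Z := Nat.pow_le_pow_right (by norm_num) (by omega)
  have hZY : 8 * Z ≤ Y := by
    rw [hZ, hY, show 8 = 2 ^ 3 by norm_num, ← pow_add]
    exact Nat.pow_le_pow_right (by norm_num) (by omega)
  have hXY : 500 * q * Y ≤ 2 ^ (100 * q) := by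
    have : (2 : ℕ) ^ (100 * q) = 2 ^ q * Y := by rw [hY, ← pow_add]; congr 1; ring
    rw [this]; exact Nat.mul_le_mul_right _ h
  have h4 : Nat.primeCounting (2 ^ (100 * q)) ≤ Y + Z + (Z + 1) := by omega
  have h5 : 100 * q * Nat.primeCounting (2 ^ (100 * q)) ≤ 100 * q * (Y + Z + (Z + 1)) :=
    Nat.mul_le_mul_left _ h4
  have h6 : q ≤ q * Z := Nat.le_mul_of_pos_right _ hZ1
  have h7 : q * (8 * Z) ≤ q * Y := Nat.mul_le_mul_left _ hZY
  have h8 : 1 ≤ q * Z := Nat.mul_pos hq hZ1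
  nlinarith

/-- The numerical heart of the large-moduli case, with all objects replaced by numbers. -/
lemma caseB_num {q m s L N' N1 w β Sm : ℕ} (hm20 : 20 ≤ m)
    (hLs : L = 2 * s) (hs1 : 1 ≤ s) (hms : 100 * q * m < s) (hL1 : L + 1 ≤ 2 ^ (25 * q))
    (hfac : m.factorial ≤ 2 ^ (11 * q * m)) (hq : 1 ≤ q)
    (hw : 1 ≤ w) (hw2 : w ≤ 2 ^ s) (hwm : w ≤ (2 ^ (100 * q)) ^ (m + 1))
    (hN : 2 ^ (99 * q) ≤ N') (hN1 : N' ≤ N1)
    (hβ : ∀ W : ℝ, 0 < W → W ^ 20 = w → (β : ℝ) * 4 ^ L ≤ W ^ 15 * Sm)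
    (hsum : N' ^ m * Sm ≤
      N' ^ (2 * L) * (2 ^ L * (L + 1) ^ m * N' ^ m + 4 ^ L * m.factorial)) :
    β ^ 20 * w ≤ (N1 ^ (2 * L)) ^ 20 := by
  have hN'pos : 0 < N' := lt_of_lt_of_le (by positivity) hN
  obtain ⟨W, hW0, hW1, hW20⟩ : ∃ W : ℝ, 0 < W ∧ 1 ≤ W ∧ W ^ 20 = w := by
    have hwR : (1 : ℝ) ≤ w := by exact_mod_cast hw
    have hW1 : 1 ≤ (w : ℝ) ^ ((1 : ℝ) / 20) := Real.one_le_rpow hwR (by norm_num)
    refine ⟨(w : ℝ) ^ ((1 : ℝ) / 20), by linarith, hW1, ?_⟩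
    rw [← Real.rpow_natCast, ← Real.rpow_mul (by linarith)]
    norm_num
  have hβW := hβ W hW0 hW20
  have hsumR : (N' : ℝ) ^ m * (Sm : ℝ) ≤
      (N' : ℝ) ^ (2 * L) * (2 ^ L * ((L : ℝ) + 1) ^ m * (N' : ℝ) ^ m + 4 ^ L * m.factorial) := by
    exact_mod_cast hsum
  -- part (i)
  have hi : W ^ 16 * (2 ^ L * ((L : ℝ) + 1) ^ m * (N' : ℝ) ^ m) ≤ 4 ^ L * (N' : ℝ) ^ m / 2 := by
    have h1 : W ^ 16 ≤ 2 ^ s := by
      calc W ^ 16 ≤ W ^ 20 := pow_le_pow_right₀ hW1 (by norm_num)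
        _ = w := hW20
        _ ≤ 2 ^ s := by exact_mod_cast hw2
    have h2 : ((L : ℝ) + 1) ^ m ≤ 2 ^ (25 * q * m) := by
      have h3' : ((L : ℝ) + 1) ≤ 2 ^ (25 * q) := by exact_mod_cast hL1
      calc ((L : ℝ) + 1) ^ m ≤ (2 ^ (25 * q)) ^ m := pow_le_pow_left₀ (by positivity) h3' m
        _ = 2 ^ (25 * q * m) := by rw [← pow_mul]
    have h3 : W ^ 16 * (2 ^ L * ((L : ℝ) + 1) ^ m) ≤ 4 ^ L / 2 := by
      calc W ^ 16 * (2 ^ L * ((L : ℝ) + 1) ^ m) ≤ 2 ^ s * (2 ^ L * 2 ^ (25 * q * m)) := by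
            gcongr
        _ = 2 ^ (s + L + 25 * q * m) := by rw [pow_add, pow_add]; ring
        _ ≤ 2 ^ (2 * L - 1) := by
            refine pow_le_pow_right₀ (by norm_num) ?_
            have : 25 * q * m * 4 = 100 * q * m := by ring
            omega
        _ = 4 ^ L / 2 := by
            rw [eq_div_iff (by norm_num), ← pow_succ, show (4 : ℝ) = 2 ^ 2 by norm_num, ← pow_mul]
            congr 1; omega
    calc W ^ 16 * (2 ^ L * ((L : ℝ) + 1) ^ m * (N' : ℝ) ^ m)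
        = (W ^ 16 * (2 ^ L * ((L : ℝ) + 1) ^ m)) * (N' : ℝ) ^ m := by ring
      _ ≤ (4 ^ L / 2) * (N' : ℝ) ^ m := mul_le_mul_of_nonneg_right h3 (by positivity)
      _ = 4 ^ L * (N' : ℝ) ^ m / 2 := by ring
  -- part (ii)
  have hii : W ^ 16 * (4 ^ L * (m.factorial : ℝ)) ≤ 4 ^ L * (N' : ℝ) ^ m / 2 := by
    have h1 : (W ^ 16 * (2 * (m.factorial : ℝ))) ^ 5 ≤ ((N' : ℝ) ^ m) ^ 5 := by
      have h2 : (W ^ 16) ^ 5 = (w : ℝ) ^ 4 := by rw [← hW20]; ring
      rw [mul_pow, h2]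
      have h3 : w ^ 4 * (2 * m.factorial) ^ 5 ≤ (N' ^ m) ^ 5 := by
        calc w ^ 4 * (2 * m.factorial) ^ 5
            ≤ ((2 ^ (100 * q)) ^ (m + 1)) ^ 4 * (2 * 2 ^ (11 * q * m)) ^ 5 := by
              gcongr
          _ = 2 ^ (100 * q * (m + 1) * 4 + (1 + 11 * q * m) * 5) := by
              have h5 : (2 : ℕ) * 2 ^ (11 * q * m) = 2 ^ (1 + 11 * q * m) := by
                rw [pow_add, pow_one]
              have h6 : ((2 ^ (100 * q)) ^ (m + 1)) ^ 4 = 2 ^ (100 * q * (m + 1) * 4) := by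
                rw [← pow_mul, ← pow_mul, mul_assoc (100 * q)]
              rw [h6, h5, ← pow_mul 2 (1 + 11 * q * m) 5, ← pow_add]
          _ ≤ 2 ^ (99 * q * (m * 5)) := by
              refine Nat.pow_le_pow_right (by norm_num) ?_
              have : q * 20 ≤ q * m := Nat.mul_le_mul_left _ hm20
              nlinarith
          _ = (2 ^ (99 * q)) ^ (m * 5) := by rw [← pow_mul]
          _ ≤ N' ^ (m * 5) := Nat.pow_le_pow_left hN _
          _ = (N' ^ m) ^ 5 := by rw [← pow_mul]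
      exact_mod_cast h3
    have h2 : W ^ 16 * (2 * (m.factorial : ℝ)) ≤ (N' : ℝ) ^ m :=
      le_of_pow_le_pow_left₀ (by norm_num) (by positivity) h1
    have h3 : (0 : ℝ) < 4 ^ L := by positivity
    nlinarith
  have hfin : (β : ℝ) * W ≤ (N1 : ℝ) ^ (2 * L) := by
    have h1 : ((β : ℝ) * W) * (4 ^ L * (N' : ℝ) ^ m) ≤
        (N' : ℝ) ^ (2 * L) * (4 ^ L * (N' : ℝ) ^ m) := by
      calc ((β : ℝ) * W) * (4 ^ L * (N' : ℝ) ^ m)
          = ((β : ℝ) * 4 ^ L) * (W * (N' : ℝ) ^ m) := by ring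
        _ ≤ (W ^ 15 * (Sm : ℝ)) * (W * (N' : ℝ) ^ m) :=
            mul_le_mul_of_nonneg_right hβW (by positivity)
        _ = W ^ 16 * ((N' : ℝ) ^ m * (Sm : ℝ)) := by ring
        _ ≤ W ^ 16 * ((N' : ℝ) ^ (2 * L) *
            (2 ^ L * ((L : ℝ) + 1) ^ m * (N' : ℝ) ^ m + 4 ^ L * m.factorial)) :=
            mul_le_mul_of_nonneg_left hsumR (by positivity)
        _ = (N' : ℝ) ^ (2 * L) * (W ^ 16 * (2 ^ L * ((L : ℝ) + 1) ^ m * (N' : ℝ) ^ m) +
            W ^ 16 * (4 ^ L * m.factorial)) := by ring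
        _ ≤ (N' : ℝ) ^ (2 * L) * (4 ^ L * (N' : ℝ) ^ m / 2 + 4 ^ L * (N' : ℝ) ^ m / 2) :=
            mul_le_mul_of_nonneg_left (add_le_add hi hii) (by positivity)
        _ = (N' : ℝ) ^ (2 * L) * (4 ^ L * (N' : ℝ) ^ m) := by ring
    have hpos : (0 : ℝ) < 4 ^ L * (N' : ℝ) ^ m := by
      have : (0 : ℝ) < N' := by exact_mod_cast hN'pos
      positivity
    have h2 := le_of_mul_le_mul_right h1 hpos
    refine h2.trans ?_
    have h3 : (N' : ℝ) ≤ N1 := by exact_mod_cast hN1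
    exact pow_le_pow_left₀ (by positivity) h3 _
  have h1 : ((β : ℝ) * W) ^ 20 ≤ ((N1 : ℝ) ^ (2 * L)) ^ 20 :=
    pow_le_pow_left₀ (by positivity) hfin 20
  rw [mul_pow, hW20] at h1
  exact_mod_cast h1

/-- Existence of the exponent `m` with `G ^ m < w ≤ G ^ (m + 1)`. -/
lemma exists_exponent {q w s : ℕ} (hq : 1 ≤ q)
    (hw1 : 2 ^ (2001 * q) < w) (hw2 : w ≤ 2 ^ s) :
    ∃ m, (2 ^ (100 * q)) ^ m < w ∧ w ≤ (2 ^ (100 * q)) ^ (m + 1) ∧ 20 ≤ m ∧
      100 * q * m < s := by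
  classical
  have hex : ∃ m, w ≤ (2 ^ (100 * q)) ^ (m + 1) := ⟨s, by
    rw [← pow_mul]
    refine hw2.trans (Nat.pow_le_pow_right (by norm_num) ?_)
    calc s ≤ s + 1 := Nat.le_succ s
      _ ≤ 100 * q * (s + 1) := Nat.le_mul_of_pos_left _ (by omega)⟩
  have hsp := Nat.find_spec hex
  have hge : 20 ≤ Nat.find hex := by
    by_contra hlt
    push Not at hlt
    have h3 : w ≤ 2 ^ (2001 * q) := by
      refine hsp.trans ?_
      rw [← pow_mul]
      refine Nat.pow_le_pow_right (by norm_num) ?_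
      calc 100 * q * (Nat.find hex + 1) ≤ 100 * q * 20 := Nat.mul_le_mul_left _ (by omega)
        _ ≤ 2001 * q := by omega
    omega
  have hm1 : (2 ^ (100 * q)) ^ Nat.find hex < w := by
    have hmin := Nat.find_min hex (m := Nat.find hex - 1) (by omega)
    push Not at hmin
    have : Nat.find hex - 1 + 1 = Nat.find hex := by omega
    rwa [this] at hmin
  refine ⟨Nat.find hex, hm1, hsp, hge, ?_⟩
  rw [← pow_mul] at hm1
  exact (Nat.pow_lt_pow_iff_right (by norm_num)).mp (hm1.trans_le hw2)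

/-- The set of bad choices of blocks for the modulus `w`. -/
noncomputable def Bad (q L w : ℕ) : Finset (Fin L → ℕ × ℕ) := by
  classical
  exact (Fintype.piFinset (fun _ : Fin L => S1 q ×ˢ S1 q)).filter fun g =>
      (∀ l, Nat.Coprime (g l).1 w ∧ Nat.Coprime (g l).2 w) ∧
        (2 ^ L) ^ 8 < Coll w (blk g) ^ 4 * w ^ 3

lemma mem_Bad {q L w : ℕ} {g : Fin L → ℕ × ℕ} : g ∈ Bad q L w ↔
    g ∈ Fintype.piFinset (fun _ : Fin L => S1 q ×ˢ S1 q) ∧
      (∀ l, Nat.Coprime (g l).1 w ∧ Nat.Coprime (g l).2 w) ∧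
        (2 ^ L) ^ 8 < Coll w (blk g) ^ 4 * w ^ 3 := by
  rw [Bad, Finset.mem_filter]

lemma bad_sum {q L w : ℕ} (W : ℝ) (hW0 : 0 < W) (hW20 : W ^ 20 = w) :
    ((Bad q L w).card : ℝ) * 4 ^ L ≤ W ^ 15 *
      ((∑ g ∈ Fintype.piFinset (fun _ : Fin L =>
        ((S1 q).filter fun p => Nat.Coprime p w) ×ˢ ((S1 q).filter fun p => Nat.Coprime p w)),
          Coll w (blk g) : ℕ) : ℝ) := by
  classical
  have hBA : Bad q L w ⊆ Fintype.piFinset (fun _ : Fin L =>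
        ((S1 q).filter fun p => Nat.Coprime p w) ×ˢ ((S1 q).filter fun p => Nat.Coprime p w)) := by
    intro g hg
    rw [mem_Bad, Fintype.mem_piFinset] at hg
    rw [Fintype.mem_piFinset]
    intro l
    have h1 := Finset.mem_product.mp (hg.1 l)
    have h2 := hg.2.1 l
    exact Finset.mem_product.mpr ⟨Finset.mem_filter.mpr ⟨h1.1, h2.1⟩,
      Finset.mem_filter.mpr ⟨h1.2, h2.2⟩⟩
  have hc : ∀ g ∈ Bad q L w, (4 : ℝ) ^ L ≤ W ^ 15 * (Coll w (blk g) : ℝ) := by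
    intro g hg
    rw [mem_Bad] at hg
    have h1 : ((2 : ℝ) ^ L) ^ 8 ≤ (Coll w (blk g) : ℝ) ^ 4 * (w : ℝ) ^ 3 := by
      exact_mod_cast hg.2.2.le
    have h2 : ((4 : ℝ) ^ L) ^ 4 ≤ (W ^ 15 * (Coll w (blk g) : ℝ)) ^ 4 := by
      calc ((4 : ℝ) ^ L) ^ 4 = ((2 : ℝ) ^ L) ^ 8 := by
            rw [show (4 : ℝ) = 2 ^ 2 by norm_num, ← pow_mul, ← pow_mul, ← pow_mul]
            congr 1; ring
        _ ≤ (Coll w (blk g) : ℝ) ^ 4 * (w : ℝ) ^ 3 := h1
        _ = (W ^ 15 * (Coll w (blk g) : ℝ)) ^ 4 := by rw [← hW20]; ring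
    exact le_of_pow_le_pow_left₀ (by norm_num) (by positivity) h2
  push_cast
  calc ((Bad q L w).card : ℝ) * 4 ^ L = ∑ g ∈ Bad q L w, (4 : ℝ) ^ L := by
        rw [Finset.sum_const, nsmul_eq_mul]
    _ ≤ ∑ g ∈ Bad q L w, W ^ 15 * (Coll w (blk g) : ℝ) := Finset.sum_le_sum hc
    _ = W ^ 15 * ∑ g ∈ Bad q L w, (Coll w (blk g) : ℝ) := by rw [Finset.mul_sum]
    _ ≤ _ := by
        refine mul_le_mul_of_nonneg_left ?_ (by positivity)
        exact Finset.sum_le_sum_of_subset_of_nonneg hBA (fun _ _ _ => Nat.cast_nonneg _)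

lemma caseB_bad {q w L : ℕ} (hq : 13 ≤ q) (hL : L = 2 ^ (10 * q + 14))
    (hw1 : 2 ^ (2001 * q) < w) (hw2 : w ≤ 2 ^ (2 ^ (10 * q + 13)))
    (hN : 2 ^ (99 * q) ≤ ((S1 q).filter fun p => Nat.Coprime p w).card) :
    (Bad q L w).card ^ 20 * w ≤
      (Fintype.piFinset (fun _ : Fin L => S1 q ×ˢ S1 q)).card ^ 20 := by
  classical
  obtain ⟨s, hs⟩ : ∃ s, s = 2 ^ (10 * q + 13) := ⟨_, rfl⟩
  rw [← hs] at hw2
  have hLs : L = 2 * s := by rw [hL, hs, ← pow_succ']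
  have hs1 : 1 ≤ s := by rw [hs]; exact Nat.one_le_two_pow
  obtain ⟨m, hm1, hm2, hm20, hms⟩ := exists_exponent (by omega) hw1 hw2
  have hms' : m ≤ s := by nlinarith
  have hmL : m ≤ L := by omega
  have hsum := sum_coll_blk_le ((S1 q).filter fun p => Nat.Coprime p w)
    (fun p hp => (mem_S1.mp (Finset.mem_filter.mp hp).1).2)
    (2 ^ (100 * q)) w m L (fun p hp => (mem_S1.mp (Finset.mem_filter.mp hp).1).1.2)
    (fun p hp => (Finset.mem_filter.mp hp).2) hm1 hmL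
  have hcardA : (Fintype.piFinset (fun _ : Fin L => S1 q ×ˢ S1 q)).card =
      (S1 q).card ^ (2 * L) := by
    rw [Fintype.card_piFinset]
    simp only [Finset.card_product, Finset.prod_const, Finset.card_univ, Fintype.card_fin]
    rw [pow_mul, sq]
  rw [hcardA]
  refine caseB_num hm20 hLs hs1 hms ?_ ?_ (by omega) (lt_of_le_of_lt (Nat.zero_le _) hw1) hw2 hm2 hN
    (Finset.card_filter_le _ _) (fun W h0 h20 => bad_sum W h0 h20) hsum
  · have h4 : 2 ^ (10 * q + 15) ≤ 2 ^ (25 * q) := Nat.pow_le_pow_right (by norm_num) (by omega)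
    have h5 : 2 ^ (10 * q + 15) = 2 * L := by rw [hL, ← pow_succ']
    have h6 : 1 ≤ L := by rw [hL]; exact Nat.one_le_two_pow
    omega
  · calc m.factorial ≤ m ^ m := Nat.factorial_le_pow m
      _ ≤ s ^ m := Nat.pow_le_pow_left hms' m
      _ = 2 ^ ((10 * q + 13) * m) := by rw [hs, ← pow_mul]
      _ ≤ 2 ^ (11 * q * m) :=
        Nat.pow_le_pow_right (by norm_num) (Nat.mul_le_mul_right _ (by omega))

end P012
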