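import Vale.Agent.P012.Defs

/-!
Collision counting.
-/

namespace P012

/-- Twice the number of cross coincidences is at most the number of coincidences. -/
lemma two_card_cross_le {ι α : Type*} [Fintype ι] [DecidableEq α] (g h : ι → α) :
    2 * (Finset.univ.filter fun p : ι × ι => g p.1 = h p.2).card ≤
      (Finset.univ.filter fun p : ι × ι => g p.1 = g p.2).card +
      (Finset.univ.filter fun p : ι × ι => h p.1 = h p.2).card := by
  classical
  set T : Finset α := Finset.univ.image g ∪ Finset.univ.image h with hT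
  have key : ∀ u v : ι → α, (∀ i, u i ∈ T) →
      (Finset.univ.filter fun p : ι × ι => u p.1 = v p.2).card =
        ∑ x ∈ T, (Finset.univ.filter fun i => u i = x).card *
          (Finset.univ.filter fun i => v i = x).card := by
    intro u v hu
    rw [Finset.card_eq_sum_card_fiberwise (f := fun p : ι × ι => u p.1) (t := T)
      (fun p _ => hu p.1)]
    refine Finset.sum_congr rfl fun x _ => ?_
    rw [← Finset.card_product]
    congr 1
    ext p
    simp only [Finset.mem_filter, Finset.mem_univ, true_and, Finset.mem_product]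
    constructor
    · rintro ⟨h1, h2⟩
      exact ⟨h2, h1 ▸ h2⟩
    · rintro ⟨h1, h2⟩
      exact ⟨h1.trans h2.symm, h1⟩
  have hg : ∀ i, g i ∈ T := fun i =>
    Finset.mem_union_left _ (Finset.mem_image_of_mem _ (Finset.mem_univ _))
  have hh : ∀ i, h i ∈ T := fun i =>
    Finset.mem_union_right _ (Finset.mem_image_of_mem _ (Finset.mem_univ _))
  rw [key g h hg, key g g hg, key h h hh, Finset.mul_sum, ← Finset.sum_add_distrib]
  refine Finset.sum_le_sum fun x _ => ?_
  nlinarith [sq_nonneg (((Finset.univ.filter fun i => g i = x).card : ℤ) -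
    ((Finset.univ.filter fun i => h i = x).card : ℤ)), 
    two_mul_le_add_sq (Finset.univ.filter fun i => g i = x).card
      (Finset.univ.filter fun i => h i = x).card]

/-- Twisting by units does not increase the number of coincidences. -/
lemma card_twist_le {ι : Type*} [Fintype ι] (w c c' : ℕ) (hw : 0 < w) (f : ι → ℕ)
    (hc : Nat.Coprime c w) (hc' : Nat.Coprime c' w) :
    (Finset.univ.filter fun p : ι × ι => c * f p.1 ≡ c' * f p.2 [MOD w]).card ≤ Coll w f := by
  have h := two_card_cross_le (fun i => (c * f i) % w) (fun i => (c' * f i) % w)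
  have h1 : ∀ c : ℕ, Nat.Coprime c w →
      (Finset.univ.filter fun p : ι × ι => (c * f p.1) % w = (c * f p.2) % w).card = Coll w f := by
    intro c hc
    unfold Coll
    congr 1
    ext p
    simp only [Finset.mem_filter, Finset.mem_univ, true_and]
    constructor
    · intro h
      exact Nat.ModEq.cancel_left_of_coprime (by rwa [Nat.Coprime, Nat.gcd_comm] at hc) h
    · intro h
      exact Nat.ModEq.mul_left c h
  rw [h1 c hc, h1 c' hc'] at h
  have h2 : (Finset.univ.filter fun p : ι × ι => c * f p.1 ≡ c' * f p.2 [MOD w]).card =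
      (Finset.univ.filter fun p : ι × ι => (c * f p.1) % w = (c' * f p.2) % w).card := rfl
  rw [h2]
  omega

/-- Multiplying by an independent family of units does not increase collisions. -/
lemma coll_mul_le {ι κ : Type*} [Fintype ι] [Fintype κ] (w : ℕ) (hw : 0 < w)
    (f : ι → ℕ) (g : κ → ℕ) (hg : ∀ j, Nat.Coprime (g j) w) :
    Coll w (fun p : ι × κ => f p.1 * g p.2) ≤ Coll w f * Fintype.card κ ^ 2 := by
  classical
  unfold Coll
  rw [Finset.card_eq_sum_card_fiberwise
    (f := fun p : (ι × κ) × (ι × κ) => ((p.1.2, p.2.2) : κ × κ)) (t := Finset.univ)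
    (fun p _ => Finset.mem_coe.2 (Finset.mem_univ _))]
  have h1 : ∀ q ∈ (Finset.univ : Finset (κ × κ)),
      ((Finset.univ.filter fun p : (ι × κ) × (ι × κ) =>
        f p.1.1 * g p.1.2 ≡ f p.2.1 * g p.2.2 [MOD w]).filter fun p =>
          (p.1.2, p.2.2) = q).card ≤ Coll w f := by
    intro q _
    refine le_trans ?_ (card_twist_le w (g q.1) (g q.2) hw f (hg _) (hg _))
    refine Finset.card_le_card_of_injOn (fun p => (p.1.1, p.2.1)) ?_ ?_
    · intro p hp
      simp only [Finset.coe_filter, Finset.mem_filter, Finset.mem_univ, true_and,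
        Set.mem_ofPred_eq] at hp ⊢
      obtain ⟨h1, h2⟩ := hp
      rw [← h2]
      simpa only [mul_comm] using h1
    · rintro ⟨⟨a, b⟩, ⟨c, d⟩⟩ hp ⟨⟨a', b'⟩, ⟨c', d'⟩⟩ hp' h
      simp only [Finset.coe_filter, Finset.mem_filter, Finset.mem_univ, true_and,
        Set.mem_ofPred_eq, Prod.mk.injEq] at hp hp' h ⊢
      obtain ⟨_, h2⟩ := hp
      obtain ⟨_, h2'⟩ := hp'
      rw [← h2'] at h2
      simp only [Prod.mk.injEq] at h2
      exact ⟨⟨h.1, h2.1⟩, h.2, h2.2⟩
  refine le_trans (Finset.sum_le_card_nsmul _ _ _ h1) ?_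
  rw [Finset.card_univ, Fintype.card_prod, smul_eq_mul, sq, mul_comm]
  exact le_rfl

/-- `Coll` does not depend on the indexing. -/
lemma coll_equiv {ι κ : Type*} [Fintype ι] [Fintype κ] (w : ℕ) (e : ι ≃ κ) (f : κ → ℕ) :
    Coll w (f ∘ e) = Coll w f := by
  classical
  unfold Coll
  refine Finset.card_equiv (Equiv.prodCongr e e) fun p => ?_
  simp

lemma exists_perm {δ α : Type*} [Fintype δ] [DecidableEq δ] [DecidableEq α] (x x' : δ → α)
    (h : Finset.univ.val.map x = Finset.univ.val.map x') :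
    ∃ σ : Equiv.Perm δ, x' ∘ σ = x := by
  have h1 : ∀ a, Nonempty ({l // x l = a} ≃ {l // x' l = a}) := by
    intro a
    refine ⟨Fintype.equivOfCardEq ?_⟩
    rw [Fintype.card_subtype, Fintype.card_subtype]
    have h2 := congrArg (Multiset.count a) h
    rw [Multiset.count_map, Multiset.count_map] at h2
    have h3 : ∀ u : δ → α, (Finset.univ.filter fun l => u l = a).card =
        (Finset.univ.val.filter fun l => a = u l).card := by
      intro u
      rw [← Finset.filter_val]
      congr 1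
      simp only [eq_comm]
    rw [h3, h3, h2]
  let e : ∀ a, {l // x l = a} ≃ {l // x' l = a} := fun a => (h1 a).some
  refine ⟨(Equiv.sigmaFiberEquiv x).symm.trans ((Equiv.sigmaCongrRight e).trans
    (Equiv.sigmaFiberEquiv x')), ?_⟩
  funext l
  simp only [Function.comp_apply, Equiv.trans_apply]
  have := (e (x l) ⟨l, rfl⟩).2
  exact this

lemma exists_perm_of_prod_eq {δ : Type*} [Fintype δ] [DecidableEq δ] (x x' : δ → ℕ)
    (hx : ∀ l, (x l).Prime) (hx' : ∀ l, (x' l).Prime) (h : ∏ l, x l = ∏ l, x' l) :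
    ∃ σ : Equiv.Perm δ, x' ∘ σ = x := by
  apply exists_perm
  have h1 : Multiset.Rel Associated (Finset.univ.val.map x) (Finset.univ.val.map x') := by
    refine prime_factors_unique ?_ ?_ ?_
    · intro p hp
      obtain ⟨l, _, rfl⟩ := Multiset.mem_map.1 hp
      exact (hx l).prime
    · intro p hp
      obtain ⟨l, _, rfl⟩ := Multiset.mem_map.1 hp
      exact (hx' l).prime
    · rw [associated_iff_eq]
      exact h
  rw [← Multiset.rel_eq]
  exact h1.mono fun a _ b _ hab => associated_iff_eq.1 hab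

/-- Products of `j` primes from `S`, when no wrap-around is possible. -/
lemma coll_prime_prod_le {δ : Type*} [Fintype δ] [DecidableEq δ] (S : Finset ℕ) (hS : ∀ p ∈ S, p.Prime)
    (y w : ℕ) (hy : ∀ p ∈ S, p ≤ y) (hw : y ^ Fintype.card δ < w) :
    Coll w (fun x : δ → S => ∏ l, (x l : ℕ)) ≤
      (Fintype.card δ).factorial * S.card ^ Fintype.card δ := by
  have hlt : ∀ x : δ → S, ∏ l, (x l : ℕ) < w := by
    intro x
    refine lt_of_le_of_lt ?_ hw
    calc ∏ l, (x l : ℕ) ≤ ∏ _l : δ, y := Finset.prod_le_prod' fun l _ => hy _ (x l).2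
      _ = y ^ Fintype.card δ := by rw [Finset.prod_const, Finset.card_univ]
  have h1 : (Finset.univ.filter fun p : (δ → S) × (δ → S) =>
      ∏ l, (p.1 l : ℕ) ≡ ∏ l, (p.2 l : ℕ) [MOD w]) ⊆
      (Finset.univ : Finset (Equiv.Perm δ × (δ → S))).image
        (fun q => (q.2 ∘ q.1, q.2)) := by
    rintro ⟨x, x'⟩ hp
    simp only [Finset.mem_filter, Finset.mem_univ, true_and] at hp
    have h2 : ∏ l, (x l : ℕ) = ∏ l, (x' l : ℕ) := Nat.ModEq.eq_of_lt_of_lt hp (hlt x) (hlt x')
    obtain ⟨σ, hσ⟩ := exists_perm_of_prod_eq (fun l => (x l : ℕ)) (fun l => (x' l : ℕ))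
      (fun l => hS _ (x l).2) (fun l => hS _ (x' l).2) h2
    simp only [Finset.mem_image, Finset.mem_univ, true_and, Prod.exists, Prod.mk.injEq]
    refine ⟨σ, x', ?_, rfl⟩
    funext l
    exact Subtype.ext (congrFun hσ l)
  unfold Coll
  refine (Finset.card_le_card h1).trans (Finset.card_image_le.trans ?_)
  rw [Finset.card_univ, Fintype.card_prod, Fintype.card_perm, Fintype.card_fun, Fintype.card_coe]

/-- Products of `J ≥ j` primes from `S`, all of them units modulo `w`. -/
lemma coll_prime_prod_le' (S : Finset ℕ) (hS : ∀ p ∈ S, p.Prime)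
    (y w j J : ℕ) (hy : ∀ p ∈ S, p ≤ y) (hj : j ≤ J) (hw : y ^ j < w)
    (hcop : ∀ p ∈ S, Nat.Coprime p w) :
    Coll w (fun x : Fin J → S => ∏ l, (x l : ℕ)) * S.card ^ j ≤
      j.factorial * S.card ^ (2 * J) := by
  obtain ⟨k, rfl⟩ := Nat.exists_eq_add_of_le hj
  have hw0 : 0 < w := lt_of_le_of_lt (Nat.zero_le _) hw
  have h1 := coll_equiv w (Fin.appendEquiv (α := S) j k)
    (fun x : Fin (j + k) → S => ∏ l, (x l : ℕ))
  have h2 : (fun x : Fin (j + k) → S => ∏ l, (x l : ℕ)) ∘ (Fin.appendEquiv (α := S) j k) =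
      fun p : (Fin j → S) × (Fin k → S) => (∏ l, (p.1 l : ℕ)) * ∏ l, (p.2 l : ℕ) := by
    funext p
    simp [Fin.appendEquiv, Fin.prod_univ_add]
  rw [h2] at h1
  rw [← h1]
  have h3 := coll_mul_le w hw0 (fun x : Fin j → S => ∏ l, (x l : ℕ))
    (fun x : Fin k → S => ∏ l, (x l : ℕ))
    (fun x => Nat.Coprime.prod_left fun l _ => hcop _ (x l).2)
  have h4 := coll_prime_prod_le (δ := Fin j) S hS y w hy (by rwa [Fintype.card_fin])
  rw [Fintype.card_fin] at h4
  rw [Fintype.card_fun, Fintype.card_fin, Fintype.card_coe] at h3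
  calc _ ≤ (j.factorial * S.card ^ j * (S.card ^ k) ^ 2) * S.card ^ j := by
        refine Nat.mul_le_mul_right _ (h3.trans ?_)
        exact Nat.mul_le_mul_right _ h4
    _ = j.factorial * S.card ^ (2 * (j + k)) := by ring

end P012
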