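import Mathlib

/-!
# P012: basic predicates used in the proof of `N(b) << log log b`

`U k q`    : the rational `q` is a sum of at most `k` unit fractions (repetitions allowed).
`Coll w f` : number of ordered pairs of indices whose values under `f` are congruent modulo `w`.
`Good e Q` : the covering and sieving properties of the smooth modulus `Q` at scale `e`.
`Ex t M c` : every integer `x ≤ 2 ^ t`, divided by any multiple `B * M` of `M`,
             is a sum of at most `c` unit fractions.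
-/

namespace P012

/-- `q` is a sum of at most `k` unit fractions (repetitions allowed). -/
def U (k : ℕ) (q : ℚ) : Prop :=
  ∃ l : Multiset ℕ, l.card ≤ k ∧ (∀ n ∈ l, 1 ≤ n) ∧
    (l.map fun n : ℕ => (1 : ℚ) / n).sum = q

/-- Number of ordered pairs of indices with congruent values. -/
def Coll {ι : Type*} [Fintype ι] (w : ℕ) (f : ι → ℕ) : ℕ :=
  (Finset.univ.filter fun p : ι × ι => f p.1 ≡ f p.2 [MOD w]).card

/-- The properties of the smooth modulus `Q` at scale `e`. -/
structure Good (e Q : ℕ) : Prop where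
  pos : 0 < Q
  cover : ∀ w y : ℕ, 0 < w → w ≤ 2 ^ (2048 * e) → Nat.Coprime w Q →
    ∃ l : Multiset ℕ, l.card = 16 ∧ (∀ d ∈ l, d ∣ Q) ∧ l.sum ≡ y [MOD w]
  adm : ∀ P X x : ℕ, 0 < P → Nat.Coprime P Q →
    ∃ v, X < v ∧ v ≤ X + P * 2 ^ e ∧ v ≡ x [MOD P] ∧ Nat.Coprime v Q
  primes : ∀ p : ℕ, p.Prime → p ∣ Q → p ≤ 2 ^ (e - 2)

/-- Exact representation property. -/
def Ex (t M c : ℕ) : Prop :=
  ∀ x B : ℕ, x ≤ 2 ^ t → 0 < B → U c ((x : ℚ) / (B * M))

end P012
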