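import Vale.Agent.P012.Unit

/-!
Greedy expansion, stopped as soon as the remainder is at most `1 / Y`.
-/

namespace P012

/-- the sequence `1, 2, 6, 42, ...` -/
def gseq : ℕ → ℕ
  | 0 => 1
  | i + 1 => gseq i * (gseq i + 1)

lemma gseq_ge (i : ℕ) : 2 ^ 2 ^ i ≤ gseq (i + 1) := by
  induction i with
  | zero => decide
  | succ i ih =>
    calc 2 ^ 2 ^ (i + 1) = 2 ^ 2 ^ i * 2 ^ 2 ^ i := by rw [pow_succ, ← pow_add]; congr 1; ring
      _ ≤ gseq (i + 1) * gseq (i + 1) := Nat.mul_le_mul ih ih
      _ ≤ gseq (i + 1) * (gseq (i + 1) + 1) := Nat.mul_le_mul le_rfl (by omega)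
      _ = gseq (i + 1 + 1) := rfl

lemma greedy_aux (a b Y : ℕ) (hab : a < b) (hY : 1 ≤ Y) (i : ℕ) :
    ∃ N a' : ℕ, 1 ≤ N ∧ N ≤ Y ^ 2 ∧ a' < b ∧ U i ((a : ℚ) / b - (a' : ℚ) / (b * N)) ∧
      (a' * Y ≤ b * N ∨ a' * gseq i < b * N) := by
  induction i with
  | zero =>
    refine ⟨1, a, le_rfl, Nat.one_le_pow _ _ hY, hab, ?_, Or.inr ?_⟩
    · have : (a : ℚ) / b - (a : ℚ) / (b * (1 : ℕ)) = 0 := by simp
      rw [this]; exact U.zero
    · simpa [gseq] using hab
  | succ i ih =>
    obtain ⟨N, a', hN, hNY, ha', hU, hor⟩ := ih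
    by_cases hdone : a' * Y ≤ b * N
    · exact ⟨N, a', hN, hNY, ha', hU.mono (Nat.le_succ i), Or.inl hdone⟩
    · have hm : a' * gseq i < b * N := hor.resolve_left hdone
      push Not at hdone
      have ha0 : 0 < a' := by
        rcases Nat.eq_zero_or_pos a' with h | h
        · subst h; simp at hdone
        · exact h
      have hb0 : 0 < b := by omega
      have hbN : 0 < b * N := Nat.mul_pos hb0 hN
      obtain ⟨m0, hm0⟩ : ∃ m0, (b * N - 1) / a' = m0 := ⟨_, rfl⟩
      obtain ⟨n, hn⟩ : ∃ n, n = m0 + 1 := ⟨_, rfl⟩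
      have hnm : n - 1 = m0 := by omega
      have h1 : (n - 1) * a' ≤ b * N - 1 := by
        rw [hnm, ← hm0]
        exact Nat.div_mul_le_self _ _
      have h1' : (n - 1) * a' < b * N := by omega
      have h2 : b * N ≤ n * a' := by
        have h := Nat.lt_mul_div_succ (b * N - 1) ha0
        rw [hm0] at h
        have h' : a' * (m0 + 1) = n * a' := by rw [hn]; ring
        omega
      have hn1 : 1 ≤ n := by omega
      have hnY : n ≤ Y := by
        by_contra hcon
        push Not at hcon
        have h3 : Y * a' ≤ (n - 1) * a' := Nat.mul_le_mul (by omega) le_rfl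
        have h4 : Y * a' = a' * Y := Nat.mul_comm _ _
        omega
      have hNY' : N ≤ Y := by
        by_contra hcon
        push Not at hcon
        have h3 : a' * Y ≤ b * N := Nat.mul_le_mul ha'.le hcon.le
        omega
      obtain ⟨c, hc⟩ : ∃ c, n * a' = b * N + c := ⟨n * a' - b * N, by omega⟩
      have hn' : n = (n - 1) + 1 := by omega
      have hca : c < a' := by
        have h5 : n * a' = (n - 1) * a' + a' := by
          conv_lhs => rw [hn']
          ring
        omega
      have hmn : gseq i ≤ n - 1 := by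
        by_contra hcon
        push Not at hcon
        have h3 : n * a' ≤ a' * gseq i := by
          rw [Nat.mul_comm a']
          exact Nat.mul_le_mul (by omega) le_rfl
        omega
      have hcn : c * (n - 1) < b * N := by
        have h6 : (n - 1) * (n * a') = (n - 1) * (b * N) + (n - 1) * c := by rw [hc]; ring
        have h7 : (n - 1) * (n * a') = n * ((n - 1) * a') := by ring
        have h8 : n * ((n - 1) * a') < n * (b * N) := Nat.mul_lt_mul_of_pos_left h1' (by omega)
        have h9 : n * (b * N) = (n - 1) * (b * N) + b * N := by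
          conv_lhs => rw [hn']
          ring
        have h10 : c * (n - 1) = (n - 1) * c := Nat.mul_comm _ _
        omega
      refine ⟨N * n, c, Nat.mul_pos hN hn1, ?_, by omega, ?_, Or.inr ?_⟩
      · calc N * n ≤ Y * Y := Nat.mul_le_mul hNY' hnY
          _ = Y ^ 2 := by ring
      · have h := hU.add (U.one_div n hn1)
        have heq : (a : ℚ) / b - (c : ℚ) / (b * (N * n : ℕ))
            = (a : ℚ) / b - (a' : ℚ) / (b * N) + 1 / n := by
          have hcq : (c : ℚ) = n * a' - b * N := by
            have : ((n * a' : ℕ) : ℚ) = ((b * N + c : ℕ) : ℚ) := by rw [hc]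
            push_cast at this
            linarith
          have hbq : (b : ℚ) ≠ 0 := by positivity
          have hNq : (N : ℚ) ≠ 0 := by positivity
          have hnq : (n : ℚ) ≠ 0 := by positivity
          rw [hcq]
          push_cast
          field_simp
          ring
        rw [heq]
        exact h
      · have h11 : gseq (i + 1) ≤ (n - 1) * n := by
          show gseq i * (gseq i + 1) ≤ (n - 1) * n
          exact Nat.mul_le_mul hmn (by omega)
        calc c * gseq (i + 1) ≤ c * ((n - 1) * n) := Nat.mul_le_mul le_rfl h11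
          _ = c * (n - 1) * n := by ring
          _ < b * N * n := Nat.mul_lt_mul_of_pos_right hcn (by omega)
          _ = b * (N * n) := by ring

/-- One proves by induction on `i`: there are `N ≥ 1`, `a'` with `U i (a/b - a'/(b N))`,
`a' * N' < b`-type bounds, and either the remainder is at most `1/Y`, or it is
less than `1/m` with `m ≥ 2^(2^(i-1))`. -/
theorem greedy (a b Y t : ℕ) (hab : a < b) (hY : 1 ≤ Y) (ht : Y ≤ 2 ^ 2 ^ t) :
    ∃ N a' : ℕ, 1 ≤ N ∧ N ≤ Y ^ 2 ∧ a' * Y ≤ b * N ∧
      U (t + 1) ((a : ℚ) / b - (a' : ℚ) / (b * N)) := by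
  obtain ⟨N, a', hN, hNY, _, hU, hor⟩ := greedy_aux a b Y hab hY (t + 1)
  refine ⟨N, a', hN, hNY, ?_, hU⟩
  rcases hor with h | h
  · exact h
  · have := gseq_ge t
    calc a' * Y ≤ a' * gseq (t + 1) := Nat.mul_le_mul le_rfl (ht.trans this)
      _ ≤ b * N := h.le

end P012
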