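import Vale.Agent.P012.Unit
import Vale.Agent.P012.Greedy

/-!
From `Good e Q` (one scale) and `Ex (2 e) M0 c` (all smaller scales) to:
* `digits`   : numerators up to `P ^ R * 2 ^ (2 e)` over `B * M0 * Q * P ^ R`;
* `ex_step`  : `Ex (2048 e) (M0 * Q * P ^ 4096) (c + 16 * 4096)`;
* `re_step`, `re_loop` : real/elimination steps;
* `frac`     : every fraction `a / b < 1` with `b ≤ 2 ^ e`.
-/

namespace P012

lemma coprime_of_good {e Q P : ℕ} (hQ : Good e Q) (hP : P.Prime) (hP1 : 2 ^ (e - 2) < P) :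
    Nat.Coprime P Q := by
  rw [Nat.Prime.coprime_iff_not_dvd hP]
  intro hdvd
  exact absurd (hQ.primes P hP hdvd) (not_le.mpr hP1)

/-- Digits in base `P`. -/
lemma digits {e Q M0 c P : ℕ} (he : 2 ≤ e) (hQ : Good e Q) (hM0 : 0 < M0) (hEx : Ex (2 * e) M0 c)
    (hP : P.Prime) (hP1 : 2 ^ (e - 2) < P) (hP2 : P ≤ 2 ^ (e - 1)) :
    ∀ R x B : ℕ, x ≤ P ^ R * 2 ^ (2 * e) → 0 < B →
      U (16 * R + c) ((x : ℚ) / (B * (M0 * Q * P ^ R))) := by
  have hQ0 : 0 < Q := hQ.pos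
  have hP0 : 0 < P := hP.pos
  have hQq : (Q : ℚ) ≠ 0 := by exact_mod_cast hQ0.ne'
  have hPq : (P : ℚ) ≠ 0 := by exact_mod_cast hP0.ne'
  have hMq : (M0 : ℚ) ≠ 0 := by exact_mod_cast hM0.ne'
  intro R
  induction R with
  | zero =>
    intro x B hx hB
    have h := hEx x (B * Q) (by simpa using hx) (Nat.mul_pos hB hQ0)
    have e1 : ((x : ℚ) / (B * (M0 * Q * P ^ 0))) = (x : ℚ) / (((B * Q : ℕ) : ℚ) * M0) := by
      push_cast; congr 1; ring
    rw [e1]; simpa using h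
  | succ R ih =>
    intro x B hx hB
    have hBq : (B : ℚ) ≠ 0 := by exact_mod_cast hB.ne'
    by_cases hx2 : x ≤ 2 ^ (2 * e)
    · have h := hEx x (B * Q * P ^ (R + 1)) hx2 (by positivity)
      have e1 : ((x : ℚ) / (B * (M0 * Q * P ^ (R + 1)))) =
          (x : ℚ) / (((B * Q * P ^ (R + 1) : ℕ) : ℚ) * M0) := by
        push_cast; congr 1; ring
      rw [e1]; exact h.mono (by omega)
    · push Not at hx2
      obtain ⟨v, hv0, hv1, hv2, hv3⟩ := hQ.adm P 0 x hP0 (coprime_of_good hQ hP hP1)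
      have hvle : v ≤ 2 ^ (2 * e - 1) := by
        calc v ≤ 0 + P * 2 ^ e := hv1
          _ ≤ 2 ^ (e - 1) * 2 ^ e := by rw [zero_add]; exact Nat.mul_le_mul_right _ hP2
          _ = 2 ^ (2 * e - 1) := by rw [← pow_add]; congr 1; omega
      have hvx : v ≤ x := by
        refine hvle.trans (le_trans ?_ hx2.le)
        exact Nat.pow_le_pow_right (by norm_num) (by omega)
      have hvs : v ≤ 2 ^ (2048 * e) := by
        refine hvle.trans ?_
        exact Nat.pow_le_pow_right (by norm_num) (by omega)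
      obtain ⟨x', hx'⟩ : P ∣ x - v := (Nat.modEq_iff_dvd' hvx).mp hv2
      have hxe : x = v + P * x' := by omega
      have hx'le : x' ≤ P ^ R * 2 ^ (2 * e) := by
        have h1 : P * x' ≤ P * (P ^ R * 2 ^ (2 * e)) := by
          calc P * x' ≤ x := by omega
            _ ≤ P ^ (R + 1) * 2 ^ (2 * e) := hx
            _ = P * (P ^ R * 2 ^ (2 * e)) := by ring
        exact Nat.le_of_mul_le_mul_left h1 hP0
      obtain ⟨l, hl1, hl2, hl3⟩ := hQ.cover v 0 hv0 hvs hv3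
      have hdv : v ∣ l.sum := (Nat.modEq_zero_iff_dvd).mp hl3
      have hlne : l ≠ 0 := by
        intro h0; rw [h0] at hl1; simp at hl1
      have hU1 := U.of_dvd_sum l v (B * M0 * P ^ (R + 1)) Q hv0 (by positivity) hQ0 hl2 hlne hdv
      rw [hl1] at hU1
      have hU2 := ih x' B hx'le hB
      have hU := hU1.add hU2
      have e1 : ((x : ℚ) / (B * (M0 * Q * P ^ (R + 1)))) =
          (v : ℚ) / (((B * M0 * P ^ (R + 1) : ℕ) : ℚ) * Q) + (x' : ℚ) / (B * (M0 * Q * P ^ R)) := by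
        rw [hxe]; push_cast; field_simp; try ring
      rw [e1]
      exact hU.mono (by omega)

lemma ex_step {e Q M0 c P : ℕ} (he : 4 ≤ e) (hQ : Good e Q) (hM0 : 0 < M0)
    (hEx : Ex (2 * e) M0 c)
    (hP : P.Prime) (hP1 : 2 ^ (e - 2) < P) (hP2 : P ≤ 2 ^ (e - 1)) :
    Ex (2048 * e) (M0 * Q * P ^ 4096) (16 * 4096 + c) := by
  intro x B hx hB
  have h := digits (by omega) hQ hM0 hEx hP hP1 hP2 4096 x B ?_ hB
  · push_cast at h ⊢
    exact h
  · refine hx.trans ?_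
    have h1 : (2 ^ (e - 2)) ^ 4096 ≤ P ^ 4096 := Nat.pow_le_pow_left hP1.le _
    calc 2 ^ (2048 * e) ≤ 2 ^ ((e - 2) * 4096 + 2 * e) :=
          Nat.pow_le_pow_right (by norm_num) (by omega)
      _ = (2 ^ (e - 2)) ^ 4096 * 2 ^ (2 * e) := by rw [pow_add, pow_mul]
      _ ≤ P ^ 4096 * 2 ^ (2 * e) := Nat.mul_le_mul_right _ h1

/-- One real step followed by one elimination step. -/
lemma re_step {e Q M0 P R : ℕ} (he : 4 ≤ e) (hQ : Good e Q) (hM0 : 16 ≤ M0)
    (hP : P.Prime) (hP1 : 2 ^ (e - 2) < P) (hP2 : P ≤ 2 ^ (e - 1)) (hR : M0 * Q ≤ P ^ R)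
    (y : ℕ) (hy : P ^ R < y) (hy' : y * 2 ^ (2 * e) ≤ M0 * Q * P ^ R) :
    ∃ y₂ : ℕ, y₂ * 2 ^ (e - 1) ≤ y ∧
      U 17 ((y : ℚ) / (M0 * Q * P ^ R : ℕ) - (y₂ : ℚ) / (M0 * Q * P ^ R : ℕ)) := by
  have hQ0 : 0 < Q := hQ.pos
  have hP0 : 0 < P := hP.pos
  have hy0 : 0 < y := lt_of_le_of_lt (Nat.zero_le _) hy
  set M := M0 * Q * P ^ R with hM
  have hMpos : 0 < M := by positivity
  -- the exponent `j`
  have hex : ∃ j, M < y * P ^ j * 2 ^ (2 * e) := by
    refine ⟨R, ?_⟩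
    have h1 : M < y * P ^ R := by
      calc M = (M0 * Q) * P ^ R := rfl
        _ ≤ P ^ R * P ^ R := Nat.mul_le_mul_right _ hR
        _ < y * P ^ R := Nat.mul_lt_mul_of_pos_right hy (by positivity)
    exact lt_of_lt_of_le h1 (Nat.le_mul_of_pos_right _ (by positivity))
  classical
  obtain ⟨j, hj1, hj2, hjR⟩ : ∃ j, y * P ^ j * 2 ^ (2 * e) ≤ M ∧
      M < y * P ^ (j + 1) * 2 ^ (2 * e) ∧ j ≤ R := by
    have hR' : Nat.find hex ≤ R := by
      refine Nat.find_min' hex ?_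
      have h1 : M < y * P ^ R := by
        calc M = (M0 * Q) * P ^ R := rfl
          _ ≤ P ^ R * P ^ R := Nat.mul_le_mul_right _ hR
          _ < y * P ^ R := Nat.mul_lt_mul_of_pos_right hy (by positivity)
      exact lt_of_lt_of_le h1 (Nat.le_mul_of_pos_right _ (by positivity))
    have hne : Nat.find hex ≠ 0 := by
      intro h0
      have := Nat.find_spec hex
      rw [h0] at this
      simp at this
      omega
    obtain ⟨j, hj⟩ := Nat.exists_eq_succ_of_ne_zero hne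
    refine ⟨j, ?_, ?_, by omega⟩
    · have := Nat.find_min hex (m := j) (by omega)
      exact not_lt.mp this
    · have := Nat.find_spec hex
      rwa [hj] at this
  set A := M0 * Q * P ^ (R - j) with hA
  have hMA : M = A * P ^ j := by
    rw [hM, hA, mul_assoc (M0 * Q), ← pow_add]; congr 2; omega
  have hPj : 0 < P ^ j := by positivity
  have hA1 : y * 2 ^ (2 * e) ≤ A := by
    have : (y * 2 ^ (2 * e)) * P ^ j ≤ A * P ^ j := by
      rw [← hMA]; calc (y * 2 ^ (2 * e)) * P ^ j = y * P ^ j * 2 ^ (2 * e) := by ring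
        _ ≤ M := hj1
    exact Nat.le_of_mul_le_mul_right this hPj
  have hA2 : A < y * (P * 2 ^ (2 * e)) := by
    have : A * P ^ j < (y * (P * 2 ^ (2 * e))) * P ^ j := by
      rw [← hMA]; calc M < y * P ^ (j + 1) * 2 ^ (2 * e) := hj2
        _ = (y * (P * 2 ^ (2 * e))) * P ^ j := by ring
    exact Nat.lt_of_mul_lt_mul_right this
  obtain ⟨X, hAX, hAX', hXle, hXge⟩ : ∃ X, A < y * X ∧ y * X ≤ A + y ∧
      X ≤ P * 2 ^ (2 * e) ∧ 2 ^ (2 * e) ≤ X := by
    refine ⟨A / y + 1, Nat.lt_mul_div_succ A hy0, ?_, ?_, ?_⟩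
    · have := Nat.mul_div_le A y
      rw [mul_add, mul_one]; exact Nat.add_le_add_right this _
    · exact (Nat.div_lt_iff_lt_mul hy0).mpr (by rw [mul_comm]; exact hA2)
    · exact ((Nat.le_div_iff_mul_le hy0).mpr (by rw [mul_comm]; exact hA1)).trans (Nat.le_succ _)
  obtain ⟨w, hw1, hw2, -, hw4⟩ := hQ.adm 1 X 0 one_pos (Nat.coprime_one_left Q)
  rw [one_mul] at hw2
  have hw0 : 0 < w := by omega
  have hwle : w ≤ 2 ^ (2048 * e) := by
    have h1 : X ≤ 2 ^ (3 * e - 1) := by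
      calc X ≤ P * 2 ^ (2 * e) := hXle
        _ ≤ 2 ^ (e - 1) * 2 ^ (2 * e) := Nat.mul_le_mul_right _ hP2
        _ = 2 ^ (3 * e - 1) := by rw [← pow_add]; congr 1; omega
    have h2 : (2:ℕ) ^ e ≤ 2 ^ (3 * e - 1) := Nat.pow_le_pow_right (by norm_num) (by omega)
    calc w ≤ X + 2 ^ e := hw2
      _ ≤ 2 ^ (3 * e - 1) + 2 ^ (3 * e - 1) := by omega
      _ = 2 ^ (3 * e) := by rw [← two_mul, ← pow_succ']; congr 1; omega
      _ ≤ 2 ^ (2048 * e) := Nat.pow_le_pow_right (by norm_num) (by omega)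
  have hwyA : A + y < w * y := by
    have h1 : (X + 1) * y ≤ w * y := Nat.mul_le_mul_right _ hw1
    have h2 : (X + 1) * y = y * X + y := by ring
    omega
  set y1 := w * y - A with hy1
  have hy1e : w * y = y1 + A := by omega
  have hy1y : y < y1 := by omega
  have hy1le : y1 ≤ (2 ^ e + 1) * y := by
    have h1 : w * y ≤ (X + 2 ^ e) * y := Nat.mul_le_mul_right _ hw2
    have h2 : (X + 2 ^ e) * y = y * X + 2 ^ e * y := by ring
    have h3 : (2 ^ e + 1) * y = 2 ^ e * y + y := by ring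
    omega
  obtain ⟨l, hl1, hl2, hl3⟩ := hQ.cover w y1 hw0 hwle hw4
  have hlsum : l.sum ≤ 16 * Q := by
    have := Multiset.sum_le_card_nsmul l Q (fun d hd => Nat.le_of_dvd hQ0 (hl2 d hd))
    rw [hl1] at this; simpa using this
  have hlsum' : l.sum ≤ y1 := by
    have h1 : 16 * Q ≤ M0 * Q := Nat.mul_le_mul_right _ hM0
    omega
  obtain ⟨y₂, hy₂⟩ : w ∣ y1 - l.sum := (Nat.modEq_iff_dvd' hlsum').mp hl3
  have hy1s : y1 = l.sum + w * y₂ := by omega
  refine ⟨y₂, ?_, ?_⟩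
  · have h1 : 2 ^ (2 * e) * y₂ ≤ w * y₂ := Nat.mul_le_mul_right _ (by omega)
    have h2 : w * y₂ ≤ (2 ^ e + 1) * y := by omega
    have h3 : (2 ^ e + 1) * y ≤ 2 ^ (e + 1) * y := by
      refine Nat.mul_le_mul_right _ ?_
      have : 1 ≤ 2 ^ e := Nat.one_le_two_pow
      rw [pow_succ]; omega
    have h4 : 2 ^ (e + 1) * (y₂ * 2 ^ (e - 1)) ≤ 2 ^ (e + 1) * y := by
      calc 2 ^ (e + 1) * (y₂ * 2 ^ (e - 1)) = (2 ^ (e + 1) * 2 ^ (e - 1)) * y₂ := by ring
        _ = 2 ^ (2 * e) * y₂ := by rw [← pow_add]; congr 2; omega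
        _ ≤ 2 ^ (e + 1) * y := by omega
    exact Nat.le_of_mul_le_mul_left h4 (by positivity)
  · have hU1 := U.of_divisors l (w * M0 * P ^ R) Q (by positivity) hQ0 hl2
    rw [hl1] at hU1
    have hU2 := U.one_div (P ^ j * w) (by positivity)
    have hU := hU2.add hU1
    have hMq : (M : ℚ) ≠ 0 := by exact_mod_cast hMpos.ne'
    have hwq : (w : ℚ) ≠ 0 := by exact_mod_cast hw0.ne'
    have hPjq : ((P : ℚ) ^ j) ≠ 0 := by
      have : (P : ℚ) ≠ 0 := by exact_mod_cast hP0.ne'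
      positivity
    have e1 : ((y : ℚ) / (M : ℕ) - (y₂ : ℚ) / (M : ℕ)) =
        (1 : ℚ) / ((P ^ j * w : ℕ) : ℚ) + (l.sum : ℚ) / (((w * M0 * P ^ R : ℕ) : ℚ) * Q) := by
      have h1 : (((w * M0 * P ^ R : ℕ) : ℚ) * Q) = w * M := by
        rw [hM]; push_cast; ring
      have h2 : ((P ^ j * w : ℕ) : ℚ) = (P : ℚ) ^ j * w := by push_cast; ring
      have h3 : (w : ℚ) * y = l.sum + w * y₂ + A := by
        have : w * y = l.sum + w * y₂ + A := by omega
        exact_mod_cast this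
      have h4 : (M : ℚ) = A * (P : ℚ) ^ j := by
        have := hMA; exact_mod_cast this
      have hAq : (A : ℚ) ≠ 0 := by
        intro h0; rw [h4, h0] at hMq; simp at hMq
      rw [h1, h2, h4]
      field_simp
      linarith
    rw [e1]
    exact hU

lemma re_loop {e Q M0 c P R : ℕ} (he : 4 ≤ e) (hQ : Good e Q) (hM0 : 16 ≤ M0)
    (hEx : Ex (2 * e) M0 c)
    (hP : P.Prime) (hP1 : 2 ^ (e - 2) < P) (hP2 : P ≤ 2 ^ (e - 1)) (hR : M0 * Q ≤ P ^ R) :
    ∀ n y : ℕ, y ≤ 2 ^ ((e - 1) * n) * P ^ R → y * 2 ^ (2 * e) ≤ M0 * Q * P ^ R →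
      U (17 * n + (16 * R + c)) ((y : ℚ) / (M0 * Q * P ^ R : ℕ)) := by
  have hdig : ∀ y : ℕ, y ≤ P ^ R → U (16 * R + c) ((y : ℚ) / (M0 * Q * P ^ R : ℕ)) := by
    intro y hy
    have h := digits (by omega) hQ (by omega) hEx hP hP1 hP2 R y 1
      (hy.trans (Nat.le_mul_of_pos_right _ (by positivity))) one_pos
    push_cast at h ⊢
    simpa using h
  intro n
  induction n with
  | zero =>
    intro y hy _
    have := hdig y (by simpa using hy)
    simpa using this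
  | succ n ih =>
    intro y hy hy'
    by_cases hyP : y ≤ P ^ R
    · exact (hdig y hyP).mono (by omega)
    · push Not at hyP
      obtain ⟨y₂, h1, h2⟩ := re_step he hQ hM0 hP hP1 hP2 hR y hyP hy'
      have hy2y : y₂ ≤ y := by
        refine le_trans ?_ h1
        exact Nat.le_mul_of_pos_right _ (by positivity)
      have h3 : y₂ ≤ 2 ^ ((e - 1) * n) * P ^ R := by
        have h4 : y₂ * 2 ^ (e - 1) ≤ (2 ^ ((e - 1) * n) * P ^ R) * 2 ^ (e - 1) := by
          calc y₂ * 2 ^ (e - 1) ≤ y := h1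
            _ ≤ 2 ^ ((e - 1) * (n + 1)) * P ^ R := hy
            _ = (2 ^ ((e - 1) * n) * P ^ R) * 2 ^ (e - 1) := by
              rw [mul_add, mul_one, pow_add]; ring
        exact Nat.le_of_mul_le_mul_right h4 (by positivity)
      have h4 := ih y₂ h3 ((Nat.mul_le_mul_right _ hy2y).trans hy')
      have h5 := h2.add h4
      rw [sub_add_cancel] at h5
      exact h5.mono (by omega)

theorem frac {e Q M0 c P R n t : ℕ} (he : 4 ≤ e) (hQ : Good e Q) (hM0 : 16 ≤ M0)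
    (hEx : Ex (2 * e) M0 c)
    (hP : P.Prime) (hP1 : 2 ^ (e - 2) < P) (hP2 : P ≤ 2 ^ (e - 1)) (hR : M0 * Q ≤ P ^ R)
    (hR6 : 6 ≤ R)
    (hn : M0 * Q ≤ 2 ^ ((e - 1) * n)) (ht : 2 * e ≤ 2 ^ t)
    (a b : ℕ) (hab : a < b) (hb : b ≤ 2 ^ e) :
    U ((t + 1) + (16 * R + c) + (17 * n + (16 * R + c))) ((a : ℚ) / b) := by
  have hQ0 : 0 < Q := hQ.pos
  have hP0 : 0 < P := hP.pos
  have hb0 : 0 < b := by omega
  obtain ⟨N, a', hN1, hN2, hN3, hN4⟩ := greedy a b (2 ^ (2 * e)) t hab Nat.one_le_two_pow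
    (Nat.pow_le_pow_right (by norm_num) ht)
  set B1 := b * N with hB1
  have hB10 : 0 < B1 := Nat.mul_pos hb0 hN1
  have hB1le : B1 ≤ 2 ^ (5 * e) := by
    calc B1 ≤ 2 ^ e * (2 ^ (2 * e)) ^ 2 := Nat.mul_le_mul hb hN2
      _ = 2 ^ (5 * e) := by rw [← pow_mul, ← pow_add]; congr 1; ring
  set M := M0 * Q * P ^ R with hM
  have hMpos : 0 < M := by positivity
  set y := a' * M / B1 with hy
  set r := a' * M % B1 with hr
  have hdm : a' * M = B1 * y + r := (Nat.div_add_mod _ _).symm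
  have hrlt : r < B1 := Nat.mod_lt _ hB10
  have hy2 : y * 2 ^ (2 * e) ≤ M := by
    have h1 : (y * 2 ^ (2 * e)) * B1 ≤ M * B1 := by
      calc (y * 2 ^ (2 * e)) * B1 = (B1 * y) * 2 ^ (2 * e) := by ring
        _ ≤ (a' * M) * 2 ^ (2 * e) := Nat.mul_le_mul_right _ (by omega)
        _ = (a' * 2 ^ (2 * e)) * M := by ring
        _ ≤ B1 * M := Nat.mul_le_mul_right _ hN3
        _ = M * B1 := by ring
    exact Nat.le_of_mul_le_mul_right h1 hB10
  have hyM : y ≤ M := le_trans (Nat.le_mul_of_pos_right _ (by positivity)) hy2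
  have hU1 := re_loop he hQ hM0 hEx hP hP1 hP2 hR n y
    (hyM.trans (by rw [hM]; exact Nat.mul_le_mul_right _ hn)) hy2
  have hU2 := digits (by omega) hQ (by omega) hEx hP hP1 hP2 R r B1 (by
    refine (hrlt.le.trans hB1le).trans ?_
    calc 2 ^ (5 * e) ≤ 2 ^ ((e - 2) * R + 2 * e) := by
          refine Nat.pow_le_pow_right (by norm_num) ?_
          have : (e - 2) * 6 ≤ (e - 2) * R := Nat.mul_le_mul_left _ hR6
          omega
      _ = (2 ^ (e - 2)) ^ R * 2 ^ (2 * e) := by rw [pow_add, pow_mul]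
      _ ≤ P ^ R * 2 ^ (2 * e) := Nat.mul_le_mul_right _ (Nat.pow_le_pow_left hP1.le _)) hB10
  have hU := (hN4.add hU2).add hU1
  have e1 : ((a : ℚ) / b) = ((a : ℚ) / b - (a' : ℚ) / (b * N)) +
      (r : ℚ) / (B1 * (M0 * Q * P ^ R)) + (y : ℚ) / (M : ℕ) := by
    have hB1q : (B1 : ℚ) ≠ 0 := by exact_mod_cast hB10.ne'
    have hMq : (M : ℚ) ≠ 0 := by exact_mod_cast hMpos.ne'
    have h1 : ((M0 : ℚ) * Q * P ^ R) = M := by rw [hM]; push_cast; ring
    have h2 : (b : ℚ) * N = B1 := by rw [hB1]; push_cast; ring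
    have h3 : (a' : ℚ) * M = B1 * y + r := by exact_mod_cast hdm
    rw [h1, h2]
    have h4 : (a' : ℚ) / B1 = r / (B1 * M) + y / M := by
      field_simp
      linarith
    rw [h4]; ring
  rw [e1]
  exact hU

end P012
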