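import Vale.Agent.P012.CaseA
import Vale.Agent.P012.CaseB

/-!
Existence of the smooth family of divisors at scale `q`, for all large `q`.
-/

namespace P012

/-- Transfer of a collision bound to a family having the given one as a factor. -/
lemma ratio_of_factor {ι κ ℓ : Type*} [Fintype ι] [Fintype κ] [Fintype ℓ] (w : ℕ) (hw : 0 < w)
    (E : ι ≃ κ × ℓ) (D : ι → ℕ) (f : κ → ℕ) (g : ℓ → ℕ)
    (hD : ∀ i, D i = f (E i).1 * g (E i).2) (hg : ∀ j, Nat.Coprime (g j) w)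
    (hf : Coll w f ^ 4 * w ^ 3 ≤ Fintype.card κ ^ 8) :
    Coll w D ^ 4 * w ^ 3 ≤ Fintype.card ι ^ 8 := by
  have h1 : D = (fun p : κ × ℓ => f p.1 * g p.2) ∘ E := by
    funext i; exact hD i
  have h2 : Coll w D ≤ Coll w f * Fintype.card ℓ ^ 2 := by
    rw [h1, coll_equiv]; exact coll_mul_le w hw f g hg
  calc Coll w D ^ 4 * w ^ 3 ≤ (Coll w f * Fintype.card ℓ ^ 2) ^ 4 * w ^ 3 :=
        Nat.mul_le_mul_right _ (Nat.pow_le_pow_left h2 4)
    _ = (Coll w f ^ 4 * w ^ 3) * Fintype.card ℓ ^ 8 := by ring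
    _ ≤ Fintype.card κ ^ 8 * Fintype.card ℓ ^ 8 := Nat.mul_le_mul_right _ hf
    _ = Fintype.card ι ^ 8 := by rw [Fintype.card_congr E, Fintype.card_prod, mul_pow]

lemma blk_dvd {L : ℕ} (g : Fin L → ℕ × ℕ) (ε : Fin L → Bool) :
    blk g ε ∣ ∏ l, (g l).1 * (g l).2 := by
  refine Finset.prod_dvd_prod_of_dvd _ _ fun l _ => ?_
  split_ifs
  · exact Dvd.intro_left _ rfl
  · exact Dvd.intro _ rfl

/-- The elementary numerical facts valid for all large `q`. -/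
lemma eventually_num : ∃ q0 : ℕ, 13 ≤ q0 ∧ ∀ q, q0 ≤ q →
    (4000 * q) ^ 40 ≤ 2 ^ (7 * q) ∧ 2 * (q + 1) ≤ 2 ^ q ∧ 500 * q ≤ 2 ^ q := by
  have h1 : ∀ᶠ q : ℕ in Filter.atTop, ((4000 * q : ℕ) : ℝ) ^ 40 ≤ 2 ^ (7 * q) := by
    have h := tendsto_pow_const_div_const_pow_of_one_lt 40 (r := (128 : ℝ)) (by norm_num)
    have h2 := h.eventually (gt_mem_nhds (show (0 : ℝ) < 1 / 4000 ^ 40 by positivity))
    filter_upwards [h2] with q hq
    rw [div_lt_div_iff₀ (by positivity) (by positivity)] at hq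
    push_cast
    rw [mul_pow, pow_mul]
    norm_num at hq ⊢
    linarith
  have h2 : ∀ᶠ q : ℕ in Filter.atTop, 500 * q ≤ 2 ^ q := by
    filter_upwards [Filter.eventually_ge_atTop 13] with q hq
    induction q, hq using Nat.le_induction with
    | base => norm_num
    | succ q hq ih => rw [pow_succ]; omega
  obtain ⟨q0, hq0⟩ := Filter.eventually_atTop.mp (h1.and h2)
  refine ⟨q0 + 13, by omega, fun q hq => ?_⟩
  have h3 := hq0 q (by omega)
  refine ⟨by exact_mod_cast h3.1, by omega, h3.2⟩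

lemma prod_S0 (q : ℕ) : ∏ p ∈ S0 q, p = primorial (2 ^ q) := rfl

/-- the part of the modulus coming from the blocks -/
def F3 {L : ℕ} (g : Fin 60 → Fin L → ℕ × ℕ) : ℕ := ∏ h, ∏ l, (g h l).1 * (g h l).2

/-- the smooth modulus -/
def Qone (q : ℕ) {L : ℕ} (g : Fin 60 → Fin L → ℕ × ℕ) : ℕ :=
  primorial (2 ^ (10 * q)) * (primorial (2 ^ q) ^ 2000 * F3 g)

/-- the family of divisors -/
def Dfam (q : ℕ) {L : ℕ} (g : Fin 60 → Fin L → ℕ × ℕ)
    (i : (Fin 2000 → S0 q) × (Fin 60 → Fin L → Bool)) : ℕ :=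
  (∏ t, (i.1 t : ℕ)) * ∏ h, blk (g h) (i.2 h)

/-- all the primes in the blocks come from `S1 q` -/
def InS1 (q : ℕ) {L : ℕ} (g : Fin 60 → Fin L → ℕ × ℕ) : Prop :=
  ∀ h l, (g h l).1 ∈ S1 q ∧ (g h l).2 ∈ S1 q

lemma F3_pos {q L : ℕ} {g : Fin 60 → Fin L → ℕ × ℕ} (hg : InS1 q g) : 0 < F3 g := by
  refine Finset.prod_pos fun h _ => Finset.prod_pos fun l _ => Nat.mul_pos ?_ ?_
  · exact (mem_S1.mp (hg h l).1).2.pos
  · exact (mem_S1.mp (hg h l).2).2.pos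

lemma Qone_pos {q L : ℕ} {g : Fin 60 → Fin L → ℕ × ℕ} (hg : InS1 q g) : 0 < Qone q g :=
  Nat.mul_pos (primorial_pos _) (Nat.mul_pos (Nat.pow_pos (primorial_pos _)) (F3_pos hg))

lemma prime_dvd_F3 {q L : ℕ} {g : Fin 60 → Fin L → ℕ × ℕ} (hg : InS1 q g) {p : ℕ} (hp : p.Prime)
    (hdvd : p ∣ F3 g) : ∃ h l, p = (g h l).1 ∨ p = (g h l).2 := by
  obtain ⟨h, -, hh⟩ := (Prime.dvd_finset_prod_iff hp.prime _).mp hdvd
  obtain ⟨l, -, hl⟩ := (Prime.dvd_finset_prod_iff hp.prime _).mp hh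
  refine ⟨h, l, ?_⟩
  rcases (Nat.Prime.dvd_mul hp).mp hl with h1 | h1
  · left; exact (Nat.prime_dvd_prime_iff_eq hp (mem_S1.mp (hg h l).1).2).mp h1
  · right; exact (Nat.prime_dvd_prime_iff_eq hp (mem_S1.mp (hg h l).2).2).mp h1

lemma prime_dvd_Qone {q L : ℕ} {g : Fin 60 → Fin L → ℕ × ℕ} (hg : InS1 q g) {p : ℕ}
    (hp : p.Prime) (hdvd : p ∣ Qone q g) :
    p ≤ 2 ^ (10 * q) ∨ ∃ h l, p = (g h l).1 ∨ p = (g h l).2 := by
  rcases (Nat.Prime.dvd_mul hp).mp hdvd with h1 | h1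
  · left
    exact (Nat.Prime.dvd_primorial_iff hp).mp h1
  · rcases (Nat.Prime.dvd_mul hp).mp h1 with h2 | h2
    · left
      have h3 := (Nat.Prime.dvd_primorial_iff hp).mp (hp.dvd_of_dvd_pow h2)
      exact h3.trans (Nat.pow_le_pow_right (by norm_num) (by omega))
    · right; exact prime_dvd_F3 hg hp h2

lemma Dfam_dvd {q L : ℕ} {g : Fin 60 → Fin L → ℕ × ℕ}
    (i : (Fin 2000 → S0 q) × (Fin 60 → Fin L → Bool)) : Dfam q g i ∣ Qone q g := by
  have h1 : (∏ t, (i.1 t : ℕ)) ∣ primorial (2 ^ q) ^ 2000 := by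
    rw [← prod_S0]
    have : ∏ _t : Fin 2000, (∏ p ∈ S0 q, p) = (∏ p ∈ S0 q, p) ^ 2000 := by
      rw [Finset.prod_const, Finset.card_univ, Fintype.card_fin]
    rw [← this]
    exact Finset.prod_dvd_prod_of_dvd _ _ fun t _ => Finset.dvd_prod_of_mem _ (i.1 t).2
  have h2 : ∏ h, blk (g h) (i.2 h) ∣ F3 g :=
    Finset.prod_dvd_prod_of_dvd _ _ fun h _ => blk_dvd _ _
  exact Dvd.dvd.mul_left (mul_dvd_mul h1 h2) _

lemma F3_le {q L : ℕ} {g : Fin 60 → Fin L → ℕ × ℕ} (hg : InS1 q g) :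
    F3 g ≤ 2 ^ (200 * q * L * 60) := by
  have h1 : ∀ h l, (g h l).1 * (g h l).2 ≤ 2 ^ (200 * q) := by
    intro h l
    calc (g h l).1 * (g h l).2 ≤ 2 ^ (100 * q) * 2 ^ (100 * q) :=
          Nat.mul_le_mul (mem_S1.mp (hg h l).1).1.2 (mem_S1.mp (hg h l).2).1.2
      _ = 2 ^ (200 * q) := by rw [← pow_add]; congr 1; ring
  calc F3 g ≤ ∏ _h : Fin 60, ∏ _l : Fin L, 2 ^ (200 * q) :=
        Finset.prod_le_prod' fun h _ => Finset.prod_le_prod' fun l _ => h1 h l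
    _ = 2 ^ (200 * q * L * 60) := by
        rw [Finset.prod_const, Finset.prod_const, Finset.card_univ, Finset.card_univ,
          Fintype.card_fin, Fintype.card_fin, ← pow_mul, ← pow_mul, mul_assoc (200 * q)]

lemma Qone_le {q L : ℕ} (hq : 1 ≤ q) (hL : L = 2 ^ (10 * q + 14)) {g : Fin 60 → Fin L → ℕ × ℕ}
    (hg : InS1 q g) : Qone q g ≤ 2 ^ ((2 + 4000 + 12000 * 16384) * q * 2 ^ (10 * q)) := by
  obtain ⟨X, hX⟩ : ∃ X, X = 2 ^ (10 * q) := ⟨_, rfl⟩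
  have hF1le : primorial (2 ^ (10 * q)) ≤ 2 ^ (2 * X) := by
    rw [hX, pow_mul 2 2]; exact primorial_le_four_pow _
  have hF2le : primorial (2 ^ q) ^ 2000 ≤ 2 ^ (4000 * X) := by
    have h1 : (2 : ℕ) ^ q ≤ X := by
      rw [hX]; exact Nat.pow_le_pow_right (by norm_num) (by omega)
    calc primorial (2 ^ q) ^ 2000 ≤ (4 ^ (2 ^ q)) ^ 2000 :=
          Nat.pow_le_pow_left (primorial_le_four_pow _) _
      _ = 2 ^ (2 * 2 ^ q * 2000) := by
          rw [show 4 = 2 ^ 2 by norm_num, ← pow_mul, ← pow_mul, mul_assoc 2]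
      _ ≤ 2 ^ (4000 * X) := Nat.pow_le_pow_right (by norm_num) (by omega)
  have hF3le : F3 g ≤ 2 ^ (12000 * 16384 * q * X) := by
    refine (F3_le hg).trans (Nat.pow_le_pow_right (by norm_num) ?_)
    have : L = 16384 * X := by rw [hL, hX, pow_add]; ring
    rw [this]
    exact le_of_eq (by ring)
  rw [← hX]
  calc Qone q g ≤ 2 ^ (2 * X) * (2 ^ (4000 * X) * 2 ^ (12000 * 16384 * q * X)) :=
        Nat.mul_le_mul hF1le (Nat.mul_le_mul hF2le hF3le)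
    _ = 2 ^ (2 * X + (4000 * X + 12000 * 16384 * q * X)) := by rw [← pow_add, ← pow_add]
    _ ≤ 2 ^ ((2 + 4000 + 12000 * 16384) * q * X) := by
        refine Nat.pow_le_pow_right (by norm_num) ?_
        have h1 : X ≤ q * X := Nat.le_mul_of_pos_left _ (by omega)
        have h2 : (2 + 4000 + 12000 * 16384) * q * X =
            2 * (q * X) + 4000 * (q * X) + 12000 * 16384 * q * X := by ring
        omega

/-- the set of exceptional primes -/
def Texc {L : ℕ} (g : Fin 60 → Fin L → ℕ × ℕ) : Finset ℕ :=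
  (Finset.univ : Finset (Fin 60 × Fin L × Bool)).image
      (fun x => if x.2.2 then (g x.1 x.2.1).2 else (g x.1 x.2.1).1)

lemma card_Texc {L : ℕ} (g : Fin 60 → Fin L → ℕ × ℕ) : (Texc g).card ≤ 120 * L := by
  refine Finset.card_image_le.trans ?_
  rw [Finset.card_univ]
  simp only [Fintype.card_prod, Fintype.card_fin, Fintype.card_bool]
  omega

lemma Texc_small {q L : ℕ} (hL : L = 2 ^ (10 * q + 14)) (g : Fin 60 → Fin L → ℕ × ℕ)
    (hq : 1 ≤ q) : (Texc g).card + 1 ≤ 2 ^ (2 * 2 ^ (10 * q)) := by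
  have h1 := card_Texc g
  have h2 : 120 * L + 1 ≤ 2 ^ (10 * q + 21) := by
    have : (2 : ℕ) ^ (10 * q + 21) = 128 * L := by rw [hL, pow_add _ _ 21, pow_add _ _ 14]; ring
    have h3 : 1 ≤ L := by rw [hL]; exact Nat.one_le_two_pow
    omega
  have h3 : (2 : ℕ) ^ (10 * q + 21) ≤ 2 ^ (2 * 2 ^ (10 * q)) := by
    refine Nat.pow_le_pow_right (by norm_num) ?_
    have h4 : 10 * q < 2 ^ (10 * q) := Nat.lt_two_pow_self
    have h5 : (2 : ℕ) ^ 10 ≤ 2 ^ (10 * q) := Nat.pow_le_pow_right (by norm_num) (by omega)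
    omega
  omega

lemma Texc_spec {q L : ℕ} (hq : 1 ≤ q) (hL : L = 2 ^ (10 * q + 14)) {g : Fin 60 → Fin L → ℕ × ℕ}
    (hg : InS1 q g) {p : ℕ} (hp : p.Prime) (hdvd : p ∣ Qone q g) (hlt : 2 ^ (10 * q) < p) :
    p ∈ Texc g ∧ (Texc g).card < p := by
  have h1 := card_Texc g
  have h2 : 120 * L ≤ 2 ^ (50 * q) := by
    have h3 : (2 : ℕ) ^ (10 * q + 21) = 128 * L := by
      rw [hL, pow_add _ _ 21, pow_add _ _ 14]; ring
    have h4 : (2 : ℕ) ^ (10 * q + 21) ≤ 2 ^ (50 * q) :=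
      Nat.pow_le_pow_right (by norm_num) (by omega)
    omega
  rcases prime_dvd_Qone hg hp hdvd with h3 | ⟨h, l, h3 | h3⟩
  · omega
  · refine ⟨Finset.mem_image.mpr ⟨(h, l, false), Finset.mem_univ _, by simp [h3]⟩, ?_⟩
    have := (mem_S1.mp (hg h l).1).1.1
    rw [← h3] at this
    omega
  · refine ⟨Finset.mem_image.mpr ⟨(h, l, true), Finset.mem_univ _, by simp [h3]⟩, ?_⟩
    have := (mem_S1.mp (hg h l).2).1.1
    rw [← h3] at this
    omega

/-- the index equivalence isolating the `h`-th block -/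
def isoBlock (α β : Type) (h : Fin 60) :
    (α × (Fin 60 → β)) ≃ β × (α × ({j : Fin 60 // j ≠ h} → β)) :=
  ((Equiv.refl α).prodCongr (Equiv.funSplitAt h β)).trans
    ((Equiv.prodAssoc α β ({j : Fin 60 // j ≠ h} → β)).symm.trans
      (((Equiv.prodComm α β).prodCongr (Equiv.refl ({j : Fin 60 // j ≠ h} → β))).trans
        (Equiv.prodAssoc β α ({j : Fin 60 // j ≠ h} → β))))

lemma isoBlock_fst (α β : Type) (h : Fin 60) (i : α × (Fin 60 → β)) :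
    (isoBlock α β h i).1 = i.2 h := rfl

lemma isoBlock_snd_fst (α β : Type) (h : Fin 60) (i : α × (Fin 60 → β)) :
    (isoBlock α β h i).2.1 = i.1 := rfl

lemma isoBlock_snd_snd (α β : Type) (h : Fin 60) (i : α × (Fin 60 → β))
    (j : {j : Fin 60 // j ≠ h}) : (isoBlock α β h i).2.2 j = i.2 j := rfl

lemma Dfam_split {q L : ℕ} (g : Fin 60 → Fin L → ℕ × ℕ) (h : Fin 60)
    (i : (Fin 2000 → S0 q) × (Fin 60 → Fin L → Bool)) :
    Dfam q g i = blk (g h) (i.2 h) *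
      ((∏ t, (i.1 t : ℕ)) * ∏ j : {j : Fin 60 // j ≠ h}, blk (g j) (i.2 j)) := by
  rw [Dfam, Fintype.prod_eq_mul_prod_subtype_ne (fun j => blk (g j) (i.2 j)) h]
  ring

lemma collisions {q L : ℕ} (hq : 1 ≤ q) (hn1 : (4000 * q) ^ 40 ≤ 2 ^ (7 * q))
    (hn2 : 2 * (q + 1) ≤ 2 ^ q) {g : Fin 60 → Fin L → ℕ × ℕ}
    (hgA : ∀ h, g h ∈ Fintype.piFinset (fun _ : Fin L => S1 q ×ˢ S1 q))
    {w : ℕ} (hw1 : 1 < w) (hcop : Nat.Coprime w (Qone q g))
    (hgW : 2 ^ (2001 * q) < w → ∃ h, g h ∉ Bad q L w) :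
    Coll w (Dfam q g) ^ 4 * w ^ 3 ≤
      Fintype.card ((Fin 2000 → S0 q) × (Fin 60 → Fin L → Bool)) ^ 8 := by
  have hw0 : 0 < w := by omega
  have hcF1 : Nat.Coprime w (primorial (2 ^ (10 * q))) :=
    Nat.Coprime.coprime_dvd_right (Dvd.intro _ rfl) hcop
  have hcF23 := Nat.Coprime.coprime_dvd_right (Dvd.intro_left _ rfl) hcop
  have hcF2 : Nat.Coprime w (primorial (2 ^ q) ^ 2000) :=
    Nat.Coprime.coprime_dvd_right (Dvd.intro _ rfl) hcF23
  have hcF3 : Nat.Coprime w (F3 g) := Nat.Coprime.coprime_dvd_right (Dvd.intro_left _ rfl) hcF23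
  have hwK : 2 ^ (10 * q) < w := by
    by_contra hle
    push Not at hle
    have h1 : w.minFac ∣ primorial (2 ^ (10 * q)) := by
      rw [Nat.Prime.dvd_primorial_iff (Nat.minFac_prime (by omega))]
      exact (Nat.minFac_le hw0).trans hle
    have h2 := Nat.Coprime.eq_one_of_dvd (Nat.Coprime.coprime_dvd_left (Nat.minFac_dvd w) hcF1) h1
    exact (Nat.minFac_prime (show w ≠ 1 by omega)).ne_one h2
  have hcop0 : ∀ p ∈ S0 q, Nat.Coprime p w := by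
    intro p hp
    rw [mem_S0] at hp
    refine (Nat.Coprime.coprime_dvd_right ?_ hcF2).symm
    refine Dvd.dvd.trans ?_ (dvd_pow_self _ (by norm_num))
    exact (Nat.Prime.dvd_primorial_iff hp.2).mpr hp.1
  have hcopA : ∀ x : Fin 2000 → S0 q, Nat.Coprime (∏ t, (x t : ℕ)) w :=
    fun x => Nat.Coprime.prod_left fun t _ => hcop0 _ (x t).2
  have hcopg : ∀ h l, Nat.Coprime (g h l).1 w ∧ Nat.Coprime (g h l).2 w := by
    intro h l
    have h1 : (g h l).1 * (g h l).2 ∣ F3 g :=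
      (Finset.dvd_prod_of_mem (fun l => (g h l).1 * (g h l).2) (Finset.mem_univ l)).trans
        (Finset.dvd_prod_of_mem (fun h => ∏ l, (g h l).1 * (g h l).2) (Finset.mem_univ h))
    exact ⟨(Nat.Coprime.coprime_dvd_right ((Dvd.intro _ rfl).trans h1) hcF3).symm,
      (Nat.Coprime.coprime_dvd_right ((Dvd.intro_left _ rfl).trans h1) hcF3).symm⟩
  have hcopblk : ∀ h (ε : Fin L → Bool), Nat.Coprime (blk (g h) ε) w := by
    intro h ε
    refine Nat.Coprime.prod_left fun l _ => ?_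
    split_ifs
    · exact (hcopg h l).2
    · exact (hcopg h l).1
  by_cases hwsmall : w ≤ 2 ^ (2001 * q)
  · -- small moduli
    exact ratio_of_factor w hw0 (Equiv.refl _) _ (fun x : Fin 2000 → S0 q => ∏ t, (x t : ℕ))
      (fun ε : Fin 60 → Fin L → Bool => ∏ h, blk (g h) (ε h)) (fun i => rfl)
      (fun ε => Nat.Coprime.prod_left fun h _ => hcopblk h _)
      (caseA (by omega) hn1 hn2 hwK hwsmall hcop0)
  · -- large moduli
    push Not at hwsmall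
    obtain ⟨h, hh⟩ := hgW hwsmall
    have hgood : Coll w (blk (g h)) ^ 4 * w ^ 3 ≤ Fintype.card (Fin L → Bool) ^ 8 := by
      rw [Fintype.card_fun, Fintype.card_bool, Fintype.card_fin]
      by_contra hlt
      push Not at hlt
      exact hh (mem_Bad.mpr ⟨hgA h, hcopg h, hlt⟩)
    refine ratio_of_factor w hw0 (isoBlock (Fin 2000 → S0 q) (Fin L → Bool) h) _ (blk (g h))
      (fun y : (Fin 2000 → S0 q) × ({j : Fin 60 // j ≠ h} → Fin L → Bool) =>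
        (∏ t, (y.1 t : ℕ)) * ∏ j : {j : Fin 60 // j ≠ h}, blk (g j) (y.2 j)) ?_ ?_ hgood
    · intro i
      rw [Dfam_split g h i]
      rfl
    · intro y
      exact Nat.Coprime.mul_left (hcopA y.1) (Nat.Coprime.prod_left fun j _ => hcopblk _ _)

/-- The choice of the blocks. -/
lemma exists_blocks {q L : ℕ} (hq : 13 ≤ q) (hn3 : 500 * q ≤ 2 ^ q)
    (hL : L = 2 ^ (10 * q + 14)) : ∃ g : Fin 60 → Fin L → ℕ × ℕ,
      (∀ h, g h ∈ Fintype.piFinset (fun _ : Fin L => S1 q ×ˢ S1 q)) ∧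
      ∀ w, w ≤ 2 ^ (2 ^ (10 * q + 13)) → 2 ^ (2001 * q) < w → ∃ h, g h ∉ Bad q L w := by
  classical
  have hAne : (Fintype.piFinset (fun _ : Fin L => S1 q ×ˢ S1 q)).Nonempty := by
    rw [Fintype.piFinset_nonempty]
    intro _
    have h1 := card_S1_coprime (q := q) (w := 1) (by omega) hn3 one_pos Nat.one_le_two_pow
    have h2 : 0 < ((S1 q).filter fun p => Nat.Coprime p 1).card :=
      lt_of_lt_of_le (by positivity) h1
    obtain ⟨p, hp⟩ := Finset.card_pos.mp h2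
    have hp' := (Finset.mem_filter.mp hp).1
    exact ⟨(p, p), Finset.mem_product.mpr ⟨hp', hp'⟩⟩
  obtain ⟨g, hgA, hgW⟩ := exists_avoid (Fintype.piFinset (fun _ : Fin L => S1 q ×ˢ S1 q)) hAne
    (Finset.Ioc (2 ^ (2001 * q)) (2 ^ (2 ^ (10 * q + 13))))
    (fun w hw => by
      rw [Finset.mem_Ioc] at hw
      have : 1 ≤ 2 ^ (2001 * q) := Nat.one_le_two_pow
      omega)
    (fun w => Bad q L w)
    (fun w hw => by
      rw [Finset.mem_Ioc] at hw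
      exact caseB_bad hq hL hw.1 hw.2
        (card_S1_coprime (by omega) hn3 (lt_of_le_of_lt (Nat.zero_le _) hw.1) hw.2))
  exact ⟨g, hgA, fun w h1 h2 => hgW w (Finset.mem_Ioc.mpr ⟨h2, h1⟩)⟩

/-- The family of divisors. -/
theorem exists_family : ∃ A0 q0 : ℕ, ∀ q, q0 ≤ q →
    ∃ (ι : Type) (_ : Fintype ι) (_ : Nonempty ι) (D : ι → ℕ) (Q1 : ℕ),
      0 < Q1 ∧ (∀ i, D i ∣ Q1) ∧ Q1 ≤ 2 ^ (A0 * q * 2 ^ (10 * q)) ∧
      primorial (2 ^ (10 * q)) ∣ Q1 ∧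
      (∀ p : ℕ, p.Prime → p ∣ Q1 → p ≤ 2 ^ (100 * q)) ∧
      (∃ T : Finset ℕ, T.card + 1 ≤ 2 ^ (2 * 2 ^ (10 * q)) ∧
        ∀ p : ℕ, p.Prime → p ∣ Q1 → 2 ^ (10 * q) < p → p ∈ T ∧ T.card < p) ∧
      ∀ w, 1 < w → w ≤ 2 ^ (2 ^ (10 * q + 13)) → Nat.Coprime w Q1 →
        Coll w D ^ 4 * w ^ 3 ≤ Fintype.card ι ^ 8 := by
  obtain ⟨q0, hq013, hnum⟩ := eventually_num
  refine ⟨2 + 4000 + 12000 * 16384, q0, fun q hq => ?_⟩
  obtain ⟨hn1, hn2, hn3⟩ := hnum q hq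
  have hq13 : 13 ≤ q := by omega
  obtain ⟨L, hL⟩ : ∃ L, L = 2 ^ (10 * q + 14) := ⟨_, rfl⟩
  obtain ⟨g, hgA, hgW⟩ := exists_blocks hq13 hn3 hL
  have hgS : InS1 q g := by
    intro h l
    have h1 := hgA h
    rw [Fintype.mem_piFinset] at h1
    exact Finset.mem_product.mp (h1 l)
  refine ⟨(Fin 2000 → S0 q) × (Fin 60 → Fin L → Bool), inferInstance, ?_,
    Dfam q g, Qone q g, Qone_pos hgS, Dfam_dvd, Qone_le (by omega) hL hgS, Dvd.intro _ rfl, ?_,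
    ⟨Texc g, Texc_small hL g (by omega), fun p hp h1 h2 => Texc_spec (by omega) hL hgS hp h1 h2⟩,
    fun w h1 h2 h3 => collisions (by omega) hn1 hn2 hgA h1 h3 (fun h4 => hgW w h2 h4)⟩
  · -- nonempty
    have : (2 : ℕ) ∈ S0 q := by
      rw [mem_S0]
      refine ⟨?_, Nat.prime_two⟩
      calc 2 = 2 ^ 1 := by norm_num
        _ ≤ 2 ^ q := Nat.pow_le_pow_right (by norm_num) (by omega)
    exact ⟨(fun _ => ⟨2, this⟩, fun _ _ => true)⟩
  · intro p hp hdvd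
    rcases prime_dvd_Qone hgS hp hdvd with h1 | ⟨h, l, h1 | h1⟩
    · exact h1.trans (Nat.pow_le_pow_right (by norm_num) (by omega))
    · rw [h1]; exact (mem_S1.mp (hgS h l).1).1.2
    · rw [h1]; exact (mem_S1.mp (hgS h l).2).1.2

end P012
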