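import Vale.Agent.P012.Defs

/-!
Covering of all residue classes modulo a composite `w` by sums of 16 products `D i * D j`.
-/

open Finset

namespace P012

section fourier

variable {ι : Type*} [Fintype ι] (D : ι → ℕ)

/-- The collision number as a sum of squared multiplicities. -/
lemma sum_mult_sq (n : ℕ) [NeZero n] :
    ∑ x : ZMod n, ((univ.filter fun i : ι => (D i : ZMod n) = x).card : ℝ) ^ 2 = Coll n D := by
  classical
  have h1 : ∀ x : ZMod n, ((univ.filter fun i : ι => (D i : ZMod n) = x).card : ℝ) ^ 2 =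
      ∑ i : ι, ∑ j : ι, if (D i : ZMod n) = x ∧ (D j : ZMod n) = x then (1 : ℝ) else 0 := by
    intro x
    rw [Finset.card_filter, sq]
    push_cast
    rw [Finset.sum_mul_sum]
    refine Finset.sum_congr rfl fun i _ => Finset.sum_congr rfl fun j _ => ?_
    by_cases h : (D i : ZMod n) = x <;> by_cases h' : (D j : ZMod n) = x <;> simp [h, h']
  rw [Finset.sum_congr rfl fun x _ => h1 x, Finset.sum_comm]
  have h2 : (Coll n D : ℝ) = ∑ i : ι, ∑ j : ι, if (D i : ZMod n) = (D j : ZMod n)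
      then (1 : ℝ) else 0 := by
    rw [Coll, Finset.card_filter]
    push_cast
    rw [Fintype.sum_prod_type]
    refine Finset.sum_congr rfl fun i _ => Finset.sum_congr rfl fun j _ => ?_
    simp only [ZMod.natCast_eq_natCast_iff]
  rw [h2]
  refine Finset.sum_congr rfl fun i _ => ?_
  rw [Finset.sum_comm]
  refine Finset.sum_congr rfl fun j _ => ?_
  rw [Finset.sum_eq_single (D i : ZMod n)]
  · by_cases h : (D i : ZMod n) = (D j : ZMod n)
    · simp [h]
    · have h' : ¬ (D j : ZMod n) = (D i : ZMod n) := fun e => h e.symm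
      simp [h, h']
  · intro x _ hx
    simp [Ne.symm hx]
  · intro h; exact absurd (Finset.mem_univ _) h

/-- Parseval modulo `n`. -/
lemma sum_norm_sq (n : ℕ) [NeZero n] (a : ZMod n) (ha : IsUnit a) :
    ∑ x : ZMod n, ‖∑ j, ZMod.stdAddChar (a * x * (D j : ZMod n))‖ ^ 2 = (n : ℝ) * Coll n D := by
  classical
  have key : (∑ x : ZMod n, ((‖∑ j, ZMod.stdAddChar (a * x * (D j : ZMod n))‖ ^ 2 : ℝ) : ℂ))
      = (n : ℂ) * Coll n D := by
    have h1 : ∀ x : ZMod n, ((‖∑ j, ZMod.stdAddChar (a * x * (D j : ZMod n))‖ ^ 2 : ℝ) : ℂ) =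
        ∑ i : ι, ∑ j : ι, ZMod.stdAddChar (x * (a * ((D i : ZMod n) - (D j : ZMod n)))) := by
      intro x
      push_cast
      rw [← Complex.mul_conj', map_sum, Finset.sum_mul_sum]
      refine Finset.sum_congr rfl fun i _ => Finset.sum_congr rfl fun j _ => ?_
      rw [← AddChar.map_neg_eq_conj, ← AddChar.map_add_eq_mul]
      congr 1
      ring
    rw [Finset.sum_congr rfl fun x _ => h1 x, Finset.sum_comm]
    have h2 : (Coll n D : ℂ) = ∑ i : ι, ∑ j : ι, if (D i : ZMod n) = (D j : ZMod n)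
        then (1 : ℂ) else 0 := by
      rw [Coll, Finset.card_filter]
      push_cast
      rw [Fintype.sum_prod_type]
      refine Finset.sum_congr rfl fun i _ => Finset.sum_congr rfl fun j _ => ?_
      simp only [ZMod.natCast_eq_natCast_iff]
    rw [h2, Finset.mul_sum]
    refine Finset.sum_congr rfl fun i _ => ?_
    rw [Finset.sum_comm, Finset.mul_sum]
    refine Finset.sum_congr rfl fun j _ => ?_
    rw [AddChar.sum_mulShift _ (ZMod.isPrimitive_stdAddChar n)]
    have h3 : a * ((D i : ZMod n) - (D j : ZMod n)) = 0 ↔ (D i : ZMod n) = (D j : ZMod n) := by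
      rw [ha.mul_right_eq_zero, sub_eq_zero]
    by_cases h : (D i : ZMod n) = (D j : ZMod n)
    · rw [if_pos (h3.2 h), if_pos h, ZMod.card]; simp
    · rw [if_neg (fun e => h (h3.1 e)), if_neg h]; simp
  exact_mod_cast key

/-- The bilinear sum bound for one frequency. -/
lemma norm_sq_bilinear_le (n : ℕ) [NeZero n] (a : ZMod n) (ha : IsUnit a) :
    ‖∑ i, ∑ j, ZMod.stdAddChar (a * (D i : ZMod n) * (D j : ZMod n))‖ ^ 2
      ≤ (n : ℝ) * (Coll n D : ℝ) ^ 2 := by
  classical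
  set T : ZMod n → ℂ := fun x => ∑ j, ZMod.stdAddChar (a * x * (D j : ZMod n)) with hT
  set μ : ZMod n → ℝ := fun x => ((univ.filter fun i : ι => (D i : ZMod n) = x).card : ℝ) with hμ
  have h1 : ∑ i, T (D i : ZMod n) = ∑ x : ZMod n, (μ x : ℂ) * T x := by
    have : ∀ i : ι, T (D i : ZMod n) = ∑ x : ZMod n, if (D i : ZMod n) = x then T x else 0 := by
      intro i
      rw [Finset.sum_ite_eq]
      simp
    rw [Finset.sum_congr rfl fun i _ => this i, Finset.sum_comm]
    refine Finset.sum_congr rfl fun x _ => ?_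
    rw [← Finset.sum_filter, Finset.sum_const, nsmul_eq_mul, hμ]
    push_cast
    rfl
  have h2 : ‖∑ i, T (D i : ZMod n)‖ ≤ ∑ x : ZMod n, μ x * ‖T x‖ := by
    rw [h1]
    refine (norm_sum_le _ _).trans (Finset.sum_le_sum fun x _ => ?_)
    rw [norm_mul, Complex.norm_real, Real.norm_of_nonneg (Nat.cast_nonneg _)]
  have h3 : ‖∑ i, T (D i : ZMod n)‖ ^ 2 ≤ (∑ x : ZMod n, μ x ^ 2) * ∑ x : ZMod n, ‖T x‖ ^ 2 := by
    refine (pow_le_pow_left₀ (norm_nonneg _) h2 2).trans ?_
    exact Finset.sum_mul_sq_le_sq_mul_sq _ _ _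
  rw [sum_mult_sq, sum_norm_sq D n a ha] at h3
  calc _ ≤ _ := h3
    _ = _ := by ring

end fourier

/-- Frequencies with a given reduced denominator. -/
lemma card_freq_le (w w' : ℕ) (hw : 0 < w) :
    ((range w).filter fun ξ => w / Nat.gcd ξ w = w').card ≤ w' := by
  classical
  have hsub : ((range w).filter fun ξ => w / Nat.gcd ξ w = w') ⊆
      (range w').image fun a => a * (w / w') := by
    intro ξ hξ
    rw [mem_filter, mem_range] at hξ
    obtain ⟨hξw, hξ'⟩ := hξ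
    set g := Nat.gcd ξ w with hg
    have hgw : g ∣ w := Nat.gcd_dvd_right _ _
    have hgξ : g ∣ ξ := Nat.gcd_dvd_left _ _
    have hgpos : 0 < g := Nat.gcd_pos_of_pos_right _ hw
    have e1 : w / w' = g := by
      rw [← hξ']
      exact Nat.div_div_self hgw hw.ne'
    rw [mem_image]
    refine ⟨ξ / g, ?_, ?_⟩
    · rw [mem_range, ← hξ']
      exact Nat.div_lt_div_of_lt_of_dvd hgw hξw
    · rw [e1]; exact Nat.div_mul_cancel hgξ
  calc _ ≤ _ := card_le_card hsub
    _ ≤ (range w').card := card_image_le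
    _ = w' := card_range _

lemma sum_inv_cube_le (N : ℕ) : ∑ n ∈ Ico 2 N, (1 : ℝ) / (n : ℝ) ^ 3 ≤ 1 / 2 := by
  have key : ∀ N : ℕ, 2 ≤ N → ∑ n ∈ Ico 2 N, (1 : ℝ) / (n : ℝ) ^ 3 ≤ 1 / 2 - 1 / (2 * (N - 1)) := by
    intro N hN
    induction N, hN using Nat.le_induction with
    | base => simp; norm_num
    | succ n hn ih =>
      rw [Finset.sum_Ico_succ_top hn]
      have hn' : (2 : ℝ) ≤ n := by exact_mod_cast hn
      have h1 : (1 : ℝ) / (n : ℝ) ^ 3 ≤ 1 / (2 * (n - 1)) - 1 / (2 * n) := by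
        have e : (1 : ℝ) / (2 * (n - 1)) - 1 / (2 * n) = 1 / (2 * n * (n - 1)) := by
          have : (n : ℝ) - 1 ≠ 0 := by linarith
          field_simp
          ring
        rw [e]
        apply one_div_le_one_div_of_le
        · have : (0 : ℝ) < n - 1 := by linarith
          positivity
        · nlinarith [sq_nonneg ((n : ℝ) - 1)]
      push_cast
      have e2 : (n : ℝ) + 1 - 1 = n := by ring
      rw [e2]
      linarith
  rcases le_or_gt 2 N with h | h
  · refine (key N h).trans ?_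
    have : (2 : ℝ) ≤ N := by exact_mod_cast h
    have : (0 : ℝ) ≤ 1 / (2 * (N - 1)) := by
      apply div_nonneg zero_le_one; linarith
    linarith
  · rw [Finset.Ico_eq_empty (by omega)]
    simp

theorem cover_of_coll {ι : Type*} [Fintype ι] [Nonempty ι] (D : ι → ℕ) (w : ℕ) (hw : 0 < w)
    (h : ∀ w', w' ∣ w → 1 < w' → Coll w' D ^ 4 * w' ^ 3 ≤ Fintype.card ι ^ 8) (y : ℕ) :
    ∃ i j : Fin 16 → ι, (∑ t, D (i t) * D (j t)) ≡ y [MOD w] := by
  classical
  by_contra hcon
  push Not at hcon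
  have : NeZero w := ⟨hw.ne'⟩
  set I : ℝ := (Fintype.card ι : ℝ) with hI
  have hIpos : 0 < I := by
    rw [hI]; exact_mod_cast Fintype.card_pos
  -- the exponential sum
  set S : ℕ → ℂ := fun ξ => ∑ p : ι × ι, ZMod.stdAddChar ((ξ : ZMod w) * ((D p.1 * D p.2 : ℕ) : ZMod w))
    with hS
  have hS0 : S 0 = (I ^ 2 : ℝ) := by
    simp [hS, hI, sq]
  -- bound for nonzero frequencies
  have hbound : ∀ ξ ∈ range w, ξ ≠ 0 → ‖S ξ‖ ^ 16 ≤ I ^ 32 / ((w / Nat.gcd ξ w : ℕ) : ℝ) ^ 4 := by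
    intro ξ hξ hξ0
    rw [mem_range] at hξ
    set g := Nat.gcd ξ w with hg
    have hgw : g ∣ w := Nat.gcd_dvd_right _ _
    have hgξ : g ∣ ξ := Nat.gcd_dvd_left _ _
    have hgpos : 0 < g := Nat.gcd_pos_of_pos_right _ hw
    set n := w / g with hn
    have hng : n * g = w := Nat.div_mul_cancel hgw
    have hnpos : 0 < n := Nat.pos_of_ne_zero fun h0 => by rw [h0] at hng; omega
    have hn1 : 1 < n := by
      rcases Nat.lt_or_ge 1 n with h1 | h1
      · exact h1
      · have : n = 1 := by omega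
        rw [this, one_mul] at hng
        have : w ∣ ξ := hng ▸ hgξ
        exact absurd (Nat.le_of_dvd (Nat.pos_of_ne_zero hξ0) this) (by omega)
    have : NeZero n := ⟨hnpos.ne'⟩
    set a := ξ / g with ha
    have hag : a * g = ξ := Nat.div_mul_cancel hgξ
    have hcop : Nat.Coprime a n := Nat.coprime_div_gcd_div_gcd hgpos
    have hu : IsUnit (a : ZMod n) := (ZMod.isUnit_iff_coprime a n).2 hcop
    -- same exponentials
    have hchar : ∀ m : ℕ, (ZMod.stdAddChar ((ξ : ZMod w) * (m : ZMod w)) : ℂ) =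
        ZMod.stdAddChar ((a : ZMod n) * (m : ZMod n)) := by
      intro m
      have e1 : ((ξ : ZMod w) * (m : ZMod w)) = (((ξ * m : ℕ) : ℤ) : ZMod w) := by push_cast; rfl
      have e2 : ((a : ZMod n) * (m : ZMod n)) = (((a * m : ℕ) : ℤ) : ZMod n) := by push_cast; rfl
      rw [e1, e2, ZMod.stdAddChar_coe, ZMod.stdAddChar_coe]
      congr 1
      rw [← hng, ← hag]
      have hg0 : (g : ℂ) ≠ 0 := by exact_mod_cast hgpos.ne'
      have hn0 : (n : ℂ) ≠ 0 := by exact_mod_cast hnpos.ne'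
      push_cast
      field_simp
    have hSeq : S ξ = ∑ i, ∑ j, ZMod.stdAddChar ((a : ZMod n) * (D i : ZMod n) * (D j : ZMod n)) := by
      simp only [hS]
      rw [Fintype.sum_prod_type]
      refine Finset.sum_congr rfl fun i _ => Finset.sum_congr rfl fun j _ => ?_
      rw [hchar]
      congr 1
      push_cast
      ring
    have hb := norm_sq_bilinear_le D n (a : ZMod n) hu
    rw [← hSeq] at hb
    have hh := h n (Dvd.intro _ hng) hn1
    have hh' : (Coll n D : ℝ) ^ 4 * (n : ℝ) ^ 3 ≤ I ^ 8 := by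
      rw [hI]; exact_mod_cast hh
    have hn0 : (0 : ℝ) < n := by exact_mod_cast hnpos
    rw [le_div_iff₀ (by positivity)]
    have hC0 : (0 : ℝ) ≤ Coll n D := Nat.cast_nonneg _
    calc ‖S ξ‖ ^ 16 * (n : ℝ) ^ 4 = (‖S ξ‖ ^ 2) ^ 8 * (n : ℝ) ^ 4 := by ring
      _ ≤ ((n : ℝ) * (Coll n D : ℝ) ^ 2) ^ 8 * (n : ℝ) ^ 4 := by gcongr
      _ = ((Coll n D : ℝ) ^ 4 * (n : ℝ) ^ 3) ^ 4 := by ring
      _ ≤ (I ^ 8) ^ 4 := by gcongr
      _ = I ^ 32 := by ring
  -- orthogonality
  have horth : ∑ ξ ∈ range w, (ZMod.stdAddChar (-((ξ : ZMod w) * (y : ZMod w))) : ℂ) * S ξ ^ 16 = 0 := by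
    have h1 : ∀ ξ : ℕ, (ZMod.stdAddChar (-((ξ : ZMod w) * (y : ZMod w))) : ℂ) * S ξ ^ 16 =
        ∑ p : Fin 16 → ι × ι, ZMod.stdAddChar ((ξ : ZMod w) *
          (((∑ t, D (p t).1 * D (p t).2 : ℕ) : ZMod w) - (y : ZMod w))) := by
      intro ξ
      rw [hS, Fintype.sum_pow, Finset.mul_sum]
      refine Finset.sum_congr rfl fun p _ => ?_
      have hprod : ∀ s : Finset (Fin 16), ∏ t ∈ s,
          (ZMod.stdAddChar ((ξ : ZMod w) * ((D (p t).1 * D (p t).2 : ℕ) : ZMod w)) : ℂ) =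
          ZMod.stdAddChar (∑ t ∈ s, (ξ : ZMod w) * ((D (p t).1 * D (p t).2 : ℕ) : ZMod w)) := by
        intro s
        induction s using Finset.induction_on with
        | empty => simp
        | insert a s has ih => rw [prod_insert has, sum_insert has, AddChar.map_add_eq_mul, ih]
      rw [hprod, ← AddChar.map_add_eq_mul]
      congr 1
      push_cast
      rw [mul_sub, Finset.mul_sum]
      ring
    rw [Finset.sum_congr rfl fun ξ _ => h1 ξ, Finset.sum_comm]
    refine Finset.sum_eq_zero fun p _ => ?_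
    have h2 : ∑ ξ ∈ range w, (ZMod.stdAddChar ((ξ : ZMod w) *
          (((∑ t, D (p t).1 * D (p t).2 : ℕ) : ZMod w) - (y : ZMod w))) : ℂ) =
        ∑ x : ZMod w, ZMod.stdAddChar (x *
          (((∑ t, D (p t).1 * D (p t).2 : ℕ) : ZMod w) - (y : ZMod w))) := by
      refine Finset.sum_nbij' (fun ξ => (ξ : ZMod w)) (fun x => x.val) ?_ ?_ ?_ ?_ ?_
      · intro ξ _; exact mem_univ _
      · intro x _; exact mem_range.2 (ZMod.val_lt x)
      · intro ξ hξ; exact ZMod.val_cast_of_lt (mem_range.1 hξ)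
      · intro x _; exact ZMod.natCast_zmod_val x
      · intro ξ _; rfl
    have h4 : ((∑ t, D (p t).1 * D (p t).2 : ℕ) : ZMod w) - (y : ZMod w) ≠ 0 := by
      intro h3
      rw [sub_eq_zero, ZMod.natCast_eq_natCast_iff] at h3
      exact hcon (fun t => (p t).1) (fun t => (p t).2) h3
    rw [h2, AddChar.sum_mulShift _ (ZMod.isPrimitive_stdAddChar w), if_neg h4]
    simp
  -- main term versus the rest
  have hmem0 : 0 ∈ range w := mem_range.2 hw
  rw [← Finset.add_sum_erase _ _ hmem0] at horth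
  have hmain : I ^ 32 ≤ ∑ ξ ∈ (range w).erase 0, ‖S ξ‖ ^ 16 := by
    have h1 : (ZMod.stdAddChar (-(((0 : ℕ) : ZMod w) * (y : ZMod w))) : ℂ) * S 0 ^ 16 =
        ((I ^ 32 : ℝ) : ℂ) := by
      rw [hS0]
      simp
      ring
    rw [h1] at horth
    have h2 : ‖((I ^ 32 : ℝ) : ℂ)‖ = I ^ 32 := by
      rw [Complex.norm_real, Real.norm_of_nonneg (by positivity)]
    rw [← h2, eq_neg_of_add_eq_zero_left horth, norm_neg]
    refine (norm_sum_le _ _).trans (Finset.sum_le_sum fun ξ _ => ?_)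
    rw [norm_mul, norm_pow]
    have : ‖(ZMod.stdAddChar (-((ξ : ZMod w) * (y : ZMod w))) : ℂ)‖ = 1 := AddChar.norm_apply _ _
    rw [this, one_mul]
  have hrest : ∑ ξ ∈ (range w).erase 0, ‖S ξ‖ ^ 16 ≤ I ^ 32 * (1 / 2) := by
    have h1 : ∑ ξ ∈ (range w).erase 0, ‖S ξ‖ ^ 16 ≤
        ∑ ξ ∈ (range w).erase 0, I ^ 32 / ((w / Nat.gcd ξ w : ℕ) : ℝ) ^ 4 :=
      Finset.sum_le_sum fun ξ hξ => hbound ξ (mem_of_mem_erase hξ) (ne_of_mem_erase hξ)
    have hmaps : ∀ ξ ∈ (range w).erase 0, w / Nat.gcd ξ w ∈ Ico 2 (w + 1) := by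
      intro ξ hξ
      have hξ0 := ne_of_mem_erase hξ
      have hξw := mem_range.1 (mem_of_mem_erase hξ)
      have hgpos : 0 < Nat.gcd ξ w := Nat.gcd_pos_of_pos_right _ hw
      have hgle : Nat.gcd ξ w ≤ ξ := Nat.gcd_le_left _ (Nat.pos_of_ne_zero hξ0)
      have hgw : Nat.gcd ξ w ∣ w := Nat.gcd_dvd_right _ _
      rw [mem_Ico]
      constructor
      · have hlt : Nat.gcd ξ w < w := lt_of_le_of_lt hgle hξw
        obtain ⟨k, hk⟩ := hgw
        have : w / Nat.gcd ξ w = k := Nat.div_eq_of_eq_mul_right hgpos hk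
        rw [this]
        by_contra hk2
        have : k ≤ 1 := by omega
        have : Nat.gcd ξ w * k ≤ Nat.gcd ξ w * 1 := Nat.mul_le_mul_left _ this
        omega
      · exact Nat.lt_succ_of_le (Nat.div_le_self _ _)
    refine h1.trans ?_
    rw [← Finset.sum_fiberwise_of_maps_to hmaps]
    have h2 : ∀ n ∈ Ico 2 (w + 1), ∑ ξ ∈ (range w).erase 0 with w / Nat.gcd ξ w = n,
        I ^ 32 / ((w / Nat.gcd ξ w : ℕ) : ℝ) ^ 4 ≤ I ^ 32 * (1 / (n : ℝ) ^ 3) := by
      intro n hn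
      have hn2 : (0 : ℝ) < n := by
        have := (mem_Ico.1 hn).1
        exact_mod_cast (by omega : 0 < n)
      have h3 : ∑ ξ ∈ (range w).erase 0 with w / Nat.gcd ξ w = n,
          I ^ 32 / ((w / Nat.gcd ξ w : ℕ) : ℝ) ^ 4 =
          ∑ ξ ∈ (range w).erase 0 with w / Nat.gcd ξ w = n, I ^ 32 / (n : ℝ) ^ 4 := by
        refine Finset.sum_congr rfl fun ξ hξ => ?_
        rw [(mem_filter.1 hξ).2]
      rw [h3, Finset.sum_const, nsmul_eq_mul]
      have h4 : (((range w).erase 0).filter fun ξ => w / Nat.gcd ξ w = n).card ≤ n :=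
        (card_le_card (filter_subset_filter _ (erase_subset _ _))).trans (card_freq_le w n hw)
      calc _ ≤ (n : ℝ) * (I ^ 32 / (n : ℝ) ^ 4) := by
            gcongr
        _ = _ := by field_simp
    refine (Finset.sum_le_sum h2).trans ?_
    rw [← Finset.mul_sum]
    gcongr
    exact sum_inv_cube_le _
  have : I ^ 32 ≤ I ^ 32 * (1 / 2) := hmain.trans hrest
  have hI32 : 0 < I ^ 32 := by positivity
  linarith

end P012
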