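import Vale.Agent.P012.Unit

/-!
The classical lower bound: `(b - 1) / b` needs at least `c log log b` unit fractions.
-/

namespace P012

lemma gap_aux (K : ℕ) (hK : 2 ≤ K) (j : ℕ) : 2 * j ≤ K → ∀ (l : Multiset ℕ) (c d : ℕ),
    l.card ≤ j → (∀ n ∈ l, 1 ≤ n) → 1 ≤ d →
    (l.map fun n : ℕ => (1 : ℚ) / n).sum < (c : ℚ) / d →
    1 / ((K : ℚ) ^ (2 ^ j - 1) * (d : ℚ) ^ 2 ^ j) ≤
      (c : ℚ) / d - (l.map fun n : ℕ => (1 : ℚ) / n).sum := by
  induction j with
  | zero =>
    intro _ l c d hl _ hd hlt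
    have h0 : l = 0 := Multiset.card_eq_zero.mp (by omega)
    subst h0
    have hdq : (0 : ℚ) < d := by exact_mod_cast hd
    simp only [Multiset.map_zero, Multiset.sum_zero, pow_zero, Nat.sub_self, one_mul, pow_one,
      sub_zero] at hlt ⊢
    have hc : (0 : ℚ) < c := by
      by_contra hcon
      push Not at hcon
      have : (c : ℚ) / d ≤ 0 := div_nonpos_of_nonpos_of_nonneg hcon hdq.le
      linarith
    have hc1 : (1 : ℚ) ≤ c := by
      have : 0 < c := by exact_mod_cast hc
      exact_mod_cast this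
    gcongr
  | succ j ih =>
    intro hjK l c d hl hpos hd hlt
    have hdq : (0 : ℚ) < d := by exact_mod_cast hd
    have hKq : (0 : ℚ) < K := by exact_mod_cast (by omega : 0 < K)
    have hK2 : (2 : ℚ) ≤ K := by exact_mod_cast hK
    have hd1 : (1 : ℚ) ≤ d := by exact_mod_cast hd
    by_cases hex : ∃ n ∈ l, n ≤ K * d
    · obtain ⟨n, hn, hnK⟩ := hex
      obtain ⟨t, rfl⟩ := Multiset.exists_cons_of_mem hn
      have hn1 := hpos n hn
      have hnq : (0 : ℚ) < n := by exact_mod_cast hn1
      rw [Multiset.card_cons] at hl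
      rw [Multiset.map_cons, Multiset.sum_cons] at hlt ⊢
      -- new fraction (c n - d) / (d n)
      have hcn : (d : ℚ) ≤ c * n := by
        have h2 : 0 ≤ (t.map fun n : ℕ => (1 : ℚ) / n).sum := by
          apply Multiset.sum_nonneg
          intro x hx
          obtain ⟨m, _, rfl⟩ := Multiset.mem_map.mp hx
          positivity
        have h3 : (1 : ℚ) / n ≤ c / d := by linarith
        rw [div_le_div_iff₀ hnq hdq] at h3
        linarith
      have hcn' : d ≤ c * n := by exact_mod_cast hcn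
      obtain ⟨c', hc'⟩ : ∃ c', c * n = d + c' := ⟨c * n - d, by omega⟩
      have hc'q : (c' : ℚ) = c * n - d := by
        have : ((c * n : ℕ) : ℚ) = ((d + c' : ℕ) : ℚ) := by rw [hc']
        push_cast at this
        linarith
      have heq : (c : ℚ) / d - 1 / n = (c' : ℚ) / ((d * n : ℕ) : ℚ) := by
        rw [hc'q]
        push_cast
        field_simp
      have h := ih (by omega) t c' (d * n) (by omega)
        (fun m hm => hpos m (Multiset.mem_cons_of_mem hm)) (Nat.mul_pos hd hn1)
        (by rw [← heq]; linarith)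
      rw [← heq] at h
      have h4 : ((d * n : ℕ) : ℚ) ^ 2 ^ j ≤ ((K : ℚ) * d ^ 2) ^ 2 ^ j := by
        gcongr
        push_cast
        have : (n : ℚ) ≤ K * d := by exact_mod_cast hnK
        nlinarith
      have hexp : 2 ^ (j + 1) - 1 = (2 ^ j - 1) + 2 ^ j := by
        have : 1 ≤ 2 ^ j := Nat.one_le_two_pow
        rw [pow_succ]; omega
      have h5 : (K : ℚ) ^ (2 ^ j - 1) * ((d * n : ℕ) : ℚ) ^ 2 ^ j ≤
          (K : ℚ) ^ (2 ^ (j + 1) - 1) * (d : ℚ) ^ 2 ^ (j + 1) := by
        calc (K : ℚ) ^ (2 ^ j - 1) * ((d * n : ℕ) : ℚ) ^ 2 ^ j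
            ≤ (K : ℚ) ^ (2 ^ j - 1) * ((K : ℚ) * d ^ 2) ^ 2 ^ j := by gcongr
          _ = (K : ℚ) ^ (2 ^ (j + 1) - 1) * (d : ℚ) ^ 2 ^ (j + 1) := by
            rw [hexp, mul_pow, ← pow_mul, pow_add, pow_succ 2 j, Nat.mul_comm 2 (2 ^ j)]
            ring
      have hdn : (0 : ℚ) < ((d * n : ℕ) : ℚ) := by
        exact_mod_cast Nat.mul_pos hd hn1
      calc 1 / ((K : ℚ) ^ (2 ^ (j + 1) - 1) * (d : ℚ) ^ 2 ^ (j + 1))
          ≤ 1 / ((K : ℚ) ^ (2 ^ j - 1) * ((d * n : ℕ) : ℚ) ^ 2 ^ j) := by
            apply one_div_le_one_div_of_le (by positivity) h5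
        _ ≤ (c : ℚ) / d - 1 / n - (t.map fun n : ℕ => (1 : ℚ) / n).sum := h
        _ = _ := by ring
    · push Not at hex
      have hc1 : (1 : ℚ) ≤ c := by
        have h2 : 0 ≤ (l.map fun n : ℕ => (1 : ℚ) / n).sum := by
          apply Multiset.sum_nonneg
          intro x hx
          obtain ⟨m, _, rfl⟩ := Multiset.mem_map.mp hx
          positivity
        have h3 : (0 : ℚ) < c / d := by linarith
        have h4 : (0 : ℚ) < c := by
          by_contra hcon
          push Not at hcon
          have : (c : ℚ) / d ≤ 0 := div_nonpos_of_nonpos_of_nonneg hcon hdq.le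
          linarith
        have : 0 < c := by exact_mod_cast h4
        exact_mod_cast this
      have hsum : (l.map fun n : ℕ => (1 : ℚ) / n).sum ≤ 1 / (2 * d) := by
        have h1 : (l.map fun n : ℕ => (1 : ℚ) / n).sum ≤
            (l.map fun _ : ℕ => 1 / ((K : ℚ) * d)).sum := by
          apply Multiset.sum_map_le_sum_map
          intro n hn
          have h := hex n hn
          have h' : (K : ℚ) * d ≤ n := by exact_mod_cast h.le
          exact one_div_le_one_div_of_le (by positivity) h'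
        rw [Multiset.map_const', Multiset.sum_replicate, nsmul_eq_mul] at h1
        refine h1.trans ?_
        have h2 : (l.card : ℚ) ≤ K / 2 := by
          have : ((2 * l.card : ℕ) : ℚ) ≤ K := by
            exact_mod_cast (by omega : 2 * l.card ≤ K)
          push_cast at this
          linarith
        calc (l.card : ℚ) * (1 / (K * d)) ≤ K / 2 * (1 / (K * d)) := by gcongr
          _ = 1 / (2 * d) := by field_simp
      have h6 : (1 : ℚ) / (2 * d) ≤ c / d - (l.map fun n : ℕ => (1 : ℚ) / n).sum := by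
        have h7 : (1 : ℚ) / d ≤ c / d := by gcongr
        have h8 : (1 : ℚ) / d = 1 / (2 * d) + 1 / (2 * d) := by field_simp; norm_num
        linarith
      refine le_trans ?_ h6
      apply one_div_le_one_div_of_le (by positivity)
      have e1 : (2 : ℚ) ≤ K ^ (2 ^ (j + 1) - 1) := by
        calc (2 : ℚ) ≤ K := hK2
          _ = K ^ 1 := (pow_one _).symm
          _ ≤ K ^ (2 ^ (j + 1) - 1) := by
            apply pow_le_pow_right₀ (by linarith)
            have : 1 ≤ 2 ^ j := Nat.one_le_two_pow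
            rw [pow_succ]; omega
      have e2 : (d : ℚ) ≤ d ^ 2 ^ (j + 1) := by
        calc (d : ℚ) = d ^ 1 := (pow_one _).symm
          _ ≤ d ^ 2 ^ (j + 1) := pow_le_pow_right₀ hd1 Nat.one_le_two_pow
      gcongr

/-- If `(b - 1) / b` is a sum of `k` unit fractions then `b ≤ (2 k) ^ (2 ^ k)`. -/
theorem le_of_rep {b k : ℕ} (hb : 2 ≤ b) (h : U k (((b - 1 : ℕ) : ℚ) / b)) :
    1 ≤ k ∧ b ≤ (2 * k) ^ 2 ^ k := by
  obtain ⟨l, h1, h2, h3⟩ := h
  have hbq : (0 : ℚ) < b := by exact_mod_cast (by omega : 0 < b)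
  have hval : (((b - 1 : ℕ) : ℚ) / b) = 1 - 1 / b := by
    rw [Nat.cast_sub (by omega)]
    field_simp
    norm_num
  have hk : 1 ≤ k := by
    by_contra hcon
    have : l = 0 := Multiset.card_eq_zero.mp (by omega)
    subst this
    simp only [Multiset.map_zero, Multiset.sum_zero] at h3
    rw [hval] at h3
    have : (1 : ℚ) / b < 1 := by
      rw [div_lt_one hbq]
      exact_mod_cast (by omega : 1 < b)
    linarith
  refine ⟨hk, ?_⟩
  have hlt : (l.map fun n : ℕ => (1 : ℚ) / n).sum < ((1 : ℕ) : ℚ) / (1 : ℕ) := by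
    rw [h3, hval]
    have : (0 : ℚ) < 1 / b := by positivity
    push_cast
    linarith
  have := gap_aux (2 * k) (by omega) k le_rfl l 1 1 h1 h2 le_rfl hlt
  rw [h3, hval] at this
  push_cast at this
  rw [one_pow, mul_one] at this
  have h4 : (1 : ℚ) / ((2 * k) ^ (2 ^ k - 1)) ≤ 1 / b := by
    have h5 : (1 : ℚ) / 1 - (1 - 1 / b) = 1 / b := by ring
    rw [h5] at this
    exact this
  have hkq : (0 : ℚ) < 2 * k := by
    have : (0 : ℚ) < k := by exact_mod_cast hk
    linarith
  have h6 : (b : ℚ) ≤ (2 * k) ^ (2 ^ k - 1) := by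
    rw [div_le_div_iff₀ (by positivity) hbq] at h4
    linarith
  have h7 : b ≤ (2 * k) ^ (2 ^ k - 1) := by exact_mod_cast h6
  exact h7.trans (Nat.pow_le_pow_right (by omega) (Nat.sub_le _ _))

/-- Logarithmic form of the lower bound. -/
theorem loglog_le_of_rep {b k : ℕ} (hb : 2 ≤ b) (h : U k (((b - 1 : ℕ) : ℚ) / b)) :
    Real.log (Real.log b) ≤ 2 * k := by
  obtain ⟨hk, hle⟩ := le_of_rep hb h
  have hk' : (1 : ℝ) ≤ k := by exact_mod_cast hk
  have hb' : (1 : ℝ) < b := by exact_mod_cast (by omega : 1 < b)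
  have hlogb : 0 < Real.log b := Real.log_pos hb'
  have h1 : (b : ℝ) ≤ (2 * k) ^ 2 ^ k := by exact_mod_cast hle
  have h2 : Real.log b ≤ 2 ^ k * Real.log (2 * k) := by
    calc Real.log b ≤ Real.log ((2 * k) ^ 2 ^ k) := Real.log_le_log (by positivity) h1
      _ = 2 ^ k * Real.log (2 * k) := by rw [Real.log_pow]; push_cast; ring
  have h3 : Real.log (2 * k) ≤ 2 * k := by
    have := Real.log_le_sub_one_of_pos (show (0 : ℝ) < 2 * k by positivity)
    linarith
  have h4 : Real.log b ≤ 2 ^ k * (2 * k) := h2.trans (by gcongr)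
  calc Real.log (Real.log b) ≤ Real.log (2 ^ k * (2 * k)) := Real.log_le_log hlogb h4
    _ = k * Real.log 2 + Real.log (2 * k) := by
        rw [Real.log_mul (by positivity) (by positivity), Real.log_pow]
    _ = k * Real.log 2 + (Real.log 2 + Real.log k) := by
        rw [Real.log_mul (by positivity) (by positivity)]
    _ ≤ 2 * k := by
        have e1 : Real.log 2 < 0.6931471808 := Real.log_two_lt_d9
        have e2 := Real.log_le_sub_one_of_pos (show (0 : ℝ) < k by positivity)
        nlinarith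

end P012
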