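import Vale.Agent.P012.Scale
import Vale.Agent.P012.Descent

/-!
Assembly: every fraction `a / b < 1` is a sum of `O(log log b)` unit fractions.
-/

namespace P012

lemma Ex.mono {t M c c' : ℕ} (h : Ex t M c) (hc : c ≤ c') : Ex t M c' :=
  fun x B hx hB => (h x B hx hB).mono hc

lemma ex_base (t : ℕ) : Ex t (2 ^ t).factorial 1 := by
  intro x B hx hB
  rcases Nat.eq_zero_or_pos x with rfl | hx0
  · have : ((0 : ℕ) : ℚ) / (B * ((2 ^ t).factorial : ℕ)) = 0 := by simp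
    rw [this]
    exact U.zero.mono (by norm_num)
  · obtain ⟨m, hm⟩ : x ∣ (2 ^ t).factorial := Nat.dvd_factorial hx0 hx
    have hf : 0 < (2 ^ t).factorial := Nat.factorial_pos _
    have hm0 : 0 < m := by
      rcases Nat.eq_zero_or_pos m with rfl | h
      · rw [hm] at hf; simp at hf
      · exact h
    have h := U.one_div (B * m) (Nat.mul_pos hB hm0)
    have e1 : ((x : ℕ) : ℚ) / (B * ((2 ^ t).factorial : ℕ)) = 1 / ((B * m : ℕ) : ℚ) := by
      rw [hm]
      have hxq : (x : ℚ) ≠ 0 := by exact_mod_cast hx0.ne'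
      have hBq : (B : ℚ) ≠ 0 := by exact_mod_cast hB.ne'
      have hmq : (m : ℚ) ≠ 0 := by exact_mod_cast hm0.ne'
      push_cast
      field_simp
    rw [e1]; exact h

lemma exists_P (e : ℕ) (he : 2 ≤ e) : ∃ P : ℕ, P.Prime ∧ 2 ^ (e - 2) < P ∧ P ≤ 2 ^ (e - 1) := by
  obtain ⟨P, h1, h2, h3⟩ := Nat.exists_prime_lt_and_le_two_mul (2 ^ (e - 2)) (by positivity)
  refine ⟨P, h1, h2, h3.trans (le_of_eq ?_)⟩
  rw [← pow_succ']; congr 1; omega

/-- All the smaller scales at once. -/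
theorem exists_ex : ∃ A C q0 : ℕ, 1 ≤ q0 ∧ ∀ q, q0 ≤ q →
    ∃ M : ℕ, 16 ≤ M ∧ M ≤ 2 ^ (A * q * 2 ^ (10 * q)) ∧
      Ex (2048 * 2 ^ (10 * q + 2)) M (C * q) := by
  obtain ⟨A1, q1, hgood⟩ := exists_good
  obtain ⟨q0, hq0⟩ : ∃ q0, q0 = q1 + 1 := ⟨_, rfl⟩
  obtain ⟨Mb, hMb16, hMbEx⟩ : ∃ Mb, 16 ≤ Mb ∧ Ex (2048 * 2 ^ (10 * q0 + 2)) Mb 1 := by
    refine ⟨(2 ^ (2048 * 2 ^ (10 * q0 + 2))).factorial, ?_, ex_base _⟩
    have h1 : 16 ≤ 2 ^ (2048 * 2 ^ (10 * q0 + 2)) := by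
      calc 16 = 2 ^ 4 := by norm_num
        _ ≤ 2 ^ (2048 * 2 ^ (10 * q0 + 2)) := by
          refine Nat.pow_le_pow_right (by norm_num) ?_
          have : 1 ≤ 2 ^ (10 * q0 + 2) := Nat.one_le_two_pow
          omega
    exact h1.trans (Nat.self_le_factorial _)
  refine ⟨2 * (A1 + 16384) + Mb, 16 * 4096 + 1, q0, by omega, ?_⟩
  intro q hq
  induction q, hq using Nat.le_induction with
  | base =>
    refine ⟨Mb, hMb16, ?_, ?_⟩
    · have h1 : Mb ≤ 2 ^ Mb := Nat.lt_two_pow_self.le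
      refine h1.trans (Nat.pow_le_pow_right (by norm_num) ?_)
      have h2 : 1 ≤ 2 ^ (10 * q0) := Nat.one_le_two_pow
      calc Mb ≤ (2 * (A1 + 16384) + Mb) := Nat.le_add_left _ _
        _ = (2 * (A1 + 16384) + Mb) * 1 * 1 := by ring
        _ ≤ (2 * (A1 + 16384) + Mb) * q0 * 2 ^ (10 * q0) :=
          Nat.mul_le_mul (Nat.mul_le_mul_left _ (by omega)) h2
    · refine hMbEx.mono ?_
      have : 1 ≤ q0 := by omega
      calc 1 ≤ q0 := this
        _ ≤ (16 * 4096 + 1) * q0 := Nat.le_mul_of_pos_left _ (by norm_num)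
  | succ q hq ih =>
    obtain ⟨M, hM16, hMle, hMEx⟩ := ih
    obtain ⟨Q, hQ, hQle⟩ := hgood (q + 1) (by omega)
    set e := 2 ^ (10 * (q + 1) + 2) with he
    have he4 : 4 ≤ e := by
      rw [he, pow_add]
      have : 1 ≤ 2 ^ (10 * (q + 1)) := Nat.one_le_two_pow
      omega
    have h2e : 2048 * 2 ^ (10 * q + 2) = 2 * e := by
      rw [he, show 2048 = 2 ^ 11 by norm_num, ← pow_add, ← pow_succ']; congr 1; ring
    obtain ⟨P, hP, hP1, hP2⟩ := exists_P e (by omega)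
    rw [h2e] at hMEx
    refine ⟨M * Q * P ^ 4096, ?_, ?_, ?_⟩
    · have hQ0 := hQ.pos
      have hP0 : 0 < P ^ 4096 := Nat.pow_pos hP.pos
      calc 16 ≤ M := hM16
        _ ≤ M * Q := Nat.le_mul_of_pos_right _ hQ0
        _ ≤ M * Q * P ^ 4096 := Nat.le_mul_of_pos_right _ hP0
    · set X := 2 ^ (10 * (q + 1)) with hX
      have hXq : 1024 * 2 ^ (10 * q) = X := by
        rw [hX, show 1024 = 2 ^ 10 by norm_num, ← pow_add]; congr 1; ring
      have heX : e = 4 * X := by rw [he, hX, pow_add]; ring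
      have hPle : P ^ 4096 ≤ 2 ^ (16384 * X) := by
        calc P ^ 4096 ≤ (2 ^ (e - 1)) ^ 4096 := Nat.pow_le_pow_left hP2 _
          _ = 2 ^ ((e - 1) * 4096) := by rw [pow_mul]
          _ ≤ 2 ^ (16384 * X) := Nat.pow_le_pow_right (by norm_num) (by omega)
      calc M * Q * P ^ 4096 ≤ 2 ^ ((2 * (A1 + 16384) + Mb) * q * 2 ^ (10 * q)) *
            2 ^ (A1 * (q + 1) * X) * 2 ^ (16384 * X) :=
            Nat.mul_le_mul (Nat.mul_le_mul hMle hQle) hPle
        _ = 2 ^ ((2 * (A1 + 16384) + Mb) * q * 2 ^ (10 * q) + A1 * (q + 1) * X + 16384 * X) := by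
            rw [pow_add, pow_add]
        _ ≤ 2 ^ ((2 * (A1 + 16384) + Mb) * (q + 1) * X) := by
            refine Nat.pow_le_pow_right (by norm_num) ?_
            have hY : 2 ^ (10 * q) ≤ X := by omega
            have hX2 : 2 * 2 ^ (10 * q) ≤ X := by omega
            have h1 : 2 * ((2 * (A1 + 16384) + Mb) * q * 2 ^ (10 * q)) ≤
                (2 * (A1 + 16384) + Mb) * q * X := by
              calc 2 * ((2 * (A1 + 16384) + Mb) * q * 2 ^ (10 * q)) =
                  (2 * (A1 + 16384) + Mb) * q * (2 * 2 ^ (10 * q)) := by ring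
                _ ≤ _ := Nat.mul_le_mul_left _ hX2
            have h2 : (2 * (A1 + 16384) + Mb) * q * X ≤ (2 * (A1 + 16384) + Mb) * (q + 1) * X :=
              Nat.mul_le_mul_right _ (Nat.mul_le_mul_left _ (Nat.le_succ q))
            have h3 : 16384 * X ≤ 16384 * (q + 1) * X :=
              Nat.mul_le_mul_right _ (by omega)
            have h4 : 2 * (A1 * (q + 1) * X + 16384 * (q + 1) * X) ≤
                (2 * (A1 + 16384) + Mb) * (q + 1) * X := by
              calc 2 * (A1 * (q + 1) * X + 16384 * (q + 1) * X)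
                  = (2 * (A1 + 16384)) * (q + 1) * X := by ring
                _ ≤ _ := Nat.mul_le_mul_right _ (Nat.mul_le_mul_right _ (Nat.le_add_right _ _))
            omega
    · have h := ex_step he4 hQ (by omega) hMEx hP hP1 hP2
      refine h.mono ?_
      ring_nf
      omega

theorem frac_scale : ∃ C q0 : ℕ, ∀ q, q0 ≤ q → ∀ a b : ℕ, a < b → b ≤ 2 ^ (2 ^ (10 * q + 2)) →
    U (C * q) ((a : ℚ) / b) := by
  obtain ⟨A1, q1, hgood⟩ := exists_good
  obtain ⟨A, C, q2, hq2, hex⟩ := exists_ex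
  refine ⟨14 + 32 * (A + A1) + 192 + 17 * (A + A1) + 2 * C, q1 + q2 + 1, ?_⟩
  intro q hq a b hab hb
  obtain ⟨p, rfl⟩ : ∃ p, q = p + 1 := ⟨q - 1, by omega⟩
  obtain ⟨M0, hM16, hMle, hMEx⟩ := hex p (by omega)
  obtain ⟨Q, hQ, hQle⟩ := hgood (p + 1) (by omega)
  set e := 2 ^ (10 * (p + 1) + 2) with he
  set X := 2 ^ (10 * (p + 1)) with hX
  have hX0 : 1 ≤ X := Nat.one_le_two_pow
  have heX : e = 4 * X := by rw [he, hX, pow_add]; ring
  have he4 : 4 ≤ e := by omega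
  have h2e : 2048 * 2 ^ (10 * p + 2) = 2 * e := by
    rw [he, show 2048 = 2 ^ 11 by norm_num, ← pow_add, ← pow_succ']; congr 1; ring
  obtain ⟨P, hP, hP1, hP2⟩ := exists_P e (by omega)
  rw [h2e] at hMEx
  have hMQ : M0 * Q ≤ 2 ^ ((A + A1) * (p + 1) * X) := by
    calc M0 * Q ≤ 2 ^ (A * p * 2 ^ (10 * p)) * 2 ^ (A1 * (p + 1) * X) := Nat.mul_le_mul hMle hQle
      _ = 2 ^ (A * p * 2 ^ (10 * p) + A1 * (p + 1) * X) := by rw [pow_add]
      _ ≤ 2 ^ ((A + A1) * (p + 1) * X) := by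
        refine Nat.pow_le_pow_right (by norm_num) ?_
        have h1 : A * p * 2 ^ (10 * p) ≤ A * (p + 1) * X := by
          refine Nat.mul_le_mul (Nat.mul_le_mul_left _ (Nat.le_succ p)) ?_
          exact Nat.pow_le_pow_right (by norm_num) (by omega)
        calc _ ≤ A * (p + 1) * X + A1 * (p + 1) * X := Nat.add_le_add_right h1 _
          _ = _ := by ring
  set R := (A + A1) * (p + 1) + 6 with hR
  set n := (A + A1) * (p + 1) with hn
  have h := frac (R := R) (n := n) (t := 10 * (p + 1) + 3) he4 hQ hM16 hMEx hP hP1 hP2 ?_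
    (by omega) ?_ ?_ a b hab hb
  · refine h.mono ?_
    have : C * p ≤ C * (p + 1) := Nat.mul_le_mul_left _ (Nat.le_succ p)
    rw [hR, hn]
    ring_nf
    ring_nf at this
    nlinarith
  · calc M0 * Q ≤ 2 ^ ((A + A1) * (p + 1) * X) := hMQ
      _ ≤ 2 ^ ((e - 2) * R) := by
        refine Nat.pow_le_pow_right (by norm_num) ?_
        calc (A + A1) * (p + 1) * X ≤ R * X := Nat.mul_le_mul_right _ (by omega)
          _ = X * R := by ring
          _ ≤ (e - 2) * R := Nat.mul_le_mul_right _ (by omega)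
      _ = (2 ^ (e - 2)) ^ R := by rw [pow_mul]
      _ ≤ P ^ R := Nat.pow_le_pow_left hP1.le _
  · calc M0 * Q ≤ 2 ^ ((A + A1) * (p + 1) * X) := hMQ
      _ ≤ 2 ^ ((e - 1) * n) := by
        refine Nat.pow_le_pow_right (by norm_num) ?_
        calc (A + A1) * (p + 1) * X = X * n := by rw [hn]; ring
          _ ≤ (e - 1) * n := Nat.mul_le_mul_right _ (by omega)
  · rw [he, ← pow_succ']

end P012
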