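import Vale.Agent.P012.Family
import Vale.Agent.P012.Fourier

/-!
`Good` moduli exist at all large scales, with a bound on their size.
-/

namespace P012

/-- Sieving lemma. -/
lemma adm_of (Q1 K : ℕ) (T : Finset ℕ) (hK : primorial K ∣ Q1) (hQ1 : 0 < Q1)
    (hT : ∀ p : ℕ, p.Prime → p ∣ Q1 → K < p → p ∈ T ∧ T.card < p) (P X x : ℕ) (hP : 0 < P)
    (hcop : Nat.Coprime P Q1) :
    ∃ v, X < v ∧ v ≤ X + P * (primorial K * (T.card + 1)) ∧ v ≡ x [MOD P] ∧ Nat.Coprime v Q1 := by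
  classical
  set m := primorial K with hm
  have hm0 : 0 < m := primorial_pos K
  have hcm : Nat.Coprime P m := Nat.Coprime.coprime_dvd_right hK hcop
  obtain ⟨v0, hv0P, hv0m⟩ := Nat.chineseRemainder hcm x 1
  -- the first representative above `X`
  set M := P * m with hM
  have hM0 : 0 < M := Nat.mul_pos hP hm0
  obtain ⟨v1, h1, h2, h3⟩ : ∃ v1, X < v1 ∧ v1 ≤ X + M ∧ v1 ≡ v0 [MOD M] := by
    refine ⟨X + 1 + (v0 + M * (X + 1) - (X + 1)) % M, by omega, ?_, ?_⟩
    · have := Nat.mod_lt (v0 + M * (X + 1) - (X + 1)) hM0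
      omega
    · have h4 : X + 1 ≤ v0 + M * (X + 1) := by nlinarith
      have h5 : X + 1 + (v0 + M * (X + 1) - (X + 1)) % M ≡
          X + 1 + (v0 + M * (X + 1) - (X + 1)) [MOD M] :=
        Nat.ModEq.add_left _ (Nat.mod_modEq _ _)
      refine h5.trans ?_
      rw [Nat.add_sub_cancel' h4]
      unfold Nat.ModEq
      simp
  have hPm : P ∣ M := Dvd.intro _ rfl
  have hmm : m ∣ M := Dvd.intro_left _ rfl
  by_contra hcon
  push Not at hcon
  have hbad : ∀ t ∈ Finset.range (T.card + 1), ∃ p, p.Prime ∧ p ∣ v1 + M * t ∧ p ∣ Q1 := by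
    intro t ht
    rw [Finset.mem_range] at ht
    have h4 : ¬ Nat.Coprime (v1 + M * t) Q1 := by
      apply hcon (v1 + M * t) (by omega)
      · calc v1 + M * t ≤ X + M + M * t := Nat.add_le_add_right h2 _
          _ = X + P * (m * (t + 1)) := by rw [hM]; ring
          _ ≤ X + P * (m * (T.card + 1)) := by gcongr; omega
      · have h5 : v1 + M * t ≡ v1 [MOD P] := by
          unfold Nat.ModEq
          rw [hM, mul_assoc, Nat.add_mul_mod_self_left]
        exact h5.trans ((h3.of_dvd hPm).trans hv0P)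
    exact Nat.Prime.not_coprime_iff_dvd.1 h4
  choose! f hf1 hf2 hf3 using hbad
  have hfK : ∀ t ∈ Finset.range (T.card + 1), K < f t := by
    intro t ht
    by_contra hle
    push Not at hle
    have h4 : f t ∣ m := by
      rw [hm]
      exact (Nat.Prime.dvd_primorial_iff (hf1 t ht)).2 hle
    have h5 : v1 + M * t ≡ 1 [MOD m] := by
      have h6 : v1 + M * t ≡ v1 [MOD m] := by
        unfold Nat.ModEq
        rw [hM, mul_comm P m, mul_assoc, Nat.add_mul_mod_self_left]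
      exact h6.trans ((h3.of_dvd hmm).trans hv0m)
    have h6 := (Nat.modEq_zero_iff_dvd.2 (hf2 t ht)).symm.trans (h5.of_dvd h4)
    have h7 : f t ∣ 1 := Nat.modEq_zero_iff_dvd.1 h6.symm
    exact (hf1 t ht).one_lt.ne' (Nat.dvd_one.1 h7)
  obtain ⟨a, ha, b, hb, hab, hfab⟩ := Finset.exists_ne_map_eq_of_card_lt_of_maps_to
    (s := Finset.range (T.card + 1)) (t := T) (f := f) (by simp)
    (fun t ht => (hT (f t) (hf1 t ht) (hf3 t ht) (hfK t ht)).1)
  wlog hlt : a < b generalizing a b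
  · exact this b hb a ha hab.symm hfab.symm (lt_of_le_of_ne (not_lt.1 hlt) hab.symm)
  have h4 := hf2 a ha
  have h5 := hf2 b hb
  rw [← hfab] at h5
  have h6 : f a ∣ M * (b - a) := by
    have h7 := Nat.dvd_sub h5 h4
    have h8 : v1 + M * b - (v1 + M * a) = M * (b - a) := by
      rw [Nat.mul_sub, Nat.add_sub_add_left]
    rwa [h8] at h7
  rcases (hf1 a ha).dvd_mul.1 h6 with h7 | h7
  · rcases (hf1 a ha).dvd_mul.1 h7 with h8 | h8
    · have := Nat.dvd_gcd h8 (hf3 a ha)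
      rw [hcop] at this
      exact (hf1 a ha).one_lt.ne' (Nat.dvd_one.1 this)
    · have := (Nat.Prime.dvd_primorial_iff (hf1 a ha)).1 h8
      exact absurd (hfK a ha) (by omega)
  · have h8 := Nat.le_of_dvd (by omega) h7
    have h9 := (hT (f a) (hf1 a ha) (hf3 a ha) (hfK a ha)).2
    rw [Finset.mem_range] at hb
    omega

lemma numeric_aux (q : ℕ) : 100 * q ≤ 2 ^ (10 * q + 2) - 2 := by
  have h : 100 * q + 2 ≤ 2 ^ (10 * q + 2) := by
    induction q with
    | zero => norm_num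
    | succ q ih =>
      have : 2 ^ (10 * (q + 1) + 2) = 1024 * 2 ^ (10 * q + 2) := by
        rw [show 10 * (q + 1) + 2 = 10 + (10 * q + 2) by ring, pow_add]
        norm_num
      rw [this]
      omega
  omega

theorem exists_good : ∃ A q0 : ℕ, ∀ q, q0 ≤ q →
    ∃ Q : ℕ, Good (2 ^ (10 * q + 2)) Q ∧ Q ≤ 2 ^ (A * q * 2 ^ (10 * q)) := by
  obtain ⟨A0, q0, h⟩ := exists_family
  refine ⟨2 * A0, q0, fun q hq => ?_⟩
  obtain ⟨ι, _, _, D, Q1, hQ1, hD, hQle, hprim, hp100, ⟨T, hTc, hT⟩, hcoll⟩ := h q hq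
  refine ⟨Q1 ^ 2, ⟨by positivity, ?_, ?_, ?_⟩, ?_⟩
  · intro w y hw hw2 hcop
    have hcop1 : Nat.Coprime w Q1 := Nat.Coprime.coprime_dvd_right (Dvd.intro_left Q1 (sq Q1).symm) hcop
    have hs : (2 : ℕ) ^ (10 * q + 13) = 2048 * 2 ^ (10 * q + 2) := by
      rw [show 10 * q + 13 = 11 + (10 * q + 2) by ring, pow_add]
      norm_num
    obtain ⟨i, j, hij⟩ := cover_of_coll D w hw (fun w' hw' hw'1 => by
      refine hcoll w' hw'1 ?_ (Nat.Coprime.coprime_dvd_left hw' hcop1)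
      rw [hs]
      exact (Nat.le_of_dvd hw hw').trans hw2) y
    refine ⟨Finset.univ.val.map fun t => D (i t) * D (j t), by simp, ?_, hij⟩
    intro d hd
    obtain ⟨t, _, rfl⟩ := Multiset.mem_map.1 hd
    rw [sq]
    exact Nat.mul_dvd_mul (hD _) (hD _)
  · intro P X x hP hcop
    have hcop1 : Nat.Coprime P Q1 := Nat.Coprime.coprime_dvd_right (Dvd.intro_left Q1 (sq Q1).symm) hcop
    obtain ⟨v, h1, h2, h3, h4⟩ := adm_of Q1 (2 ^ (10 * q)) T hprim hQ1
      (fun p hp hpd hK => hT p hp hpd hK) P X x hP hcop1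
    refine ⟨v, h1, h2.trans ?_, h3, Nat.Coprime.pow_right 2 h4⟩
    gcongr
    calc primorial (2 ^ (10 * q)) * (T.card + 1) ≤ 4 ^ (2 ^ (10 * q)) * 2 ^ (2 * 2 ^ (10 * q)) :=
          Nat.mul_le_mul (primorial_le_four_pow _) hTc
      _ = 2 ^ 2 ^ (10 * q + 2) := by
          rw [show (4 : ℕ) = 2 ^ 2 by norm_num, ← pow_mul, ← pow_add]
          congr 1
          rw [pow_add]
          ring
  · intro p hp hpd
    have h1 := hp100 p hp (hp.dvd_of_dvd_pow hpd)
    exact h1.trans (Nat.pow_le_pow_right (by norm_num) (numeric_aux q))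
  · calc Q1 ^ 2 ≤ (2 ^ (A0 * q * 2 ^ (10 * q))) ^ 2 := Nat.pow_le_pow_left hQle 2
      _ = 2 ^ (2 * A0 * q * 2 ^ (10 * q)) := by
          rw [← pow_mul]
          congr 1
          ring

end P012
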