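import Vale.Agent.P012.Defs

/-!
Elementary closure properties of `U` and the distinctness lemma.
-/

namespace P012

lemma U.zero : U 0 0 := ⟨0, by simp⟩

lemma U.mono {k k' : ℕ} {q : ℚ} (h : U k q) (hk : k ≤ k') : U k' q := by
  obtain ⟨l, h1, h2, h3⟩ := h
  exact ⟨l, h1.trans hk, h2, h3⟩

lemma U.add {k k' : ℕ} {q q' : ℚ} (h : U k q) (h' : U k' q') : U (k + k') (q + q') := by
  obtain ⟨l, h1, h2, h3⟩ := h
  obtain ⟨l', h1', h2', h3'⟩ := h'
  refine ⟨l + l', ?_, ?_, ?_⟩
  · rw [Multiset.card_add]; omega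
  · intro n hn
    rcases Multiset.mem_add.mp hn with h | h
    · exact h2 n h
    · exact h2' n h
  · rw [Multiset.map_add, Multiset.sum_add, h3, h3']

lemma U.one_div (n : ℕ) (hn : 0 < n) : U 1 ((1 : ℚ) / n) := by
  refine ⟨{n}, by simp, ?_, by simp⟩
  intro m hm
  rw [Multiset.mem_singleton] at hm
  omega

/-- A sum of `card l` divisors of `Q`, over `B * Q`. -/
lemma U.of_divisors (l : Multiset ℕ) (B Q : ℕ) (hB : 0 < B) (hQ : 0 < Q)
    (hl : ∀ d ∈ l, d ∣ Q) : U l.card ((l.sum : ℚ) / (B * Q)) := by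
  refine ⟨l.map fun d => B * (Q / d), by simp, ?_, ?_⟩
  · intro n hn
    obtain ⟨d, hd, rfl⟩ := Multiset.mem_map.mp hn
    have h1 := hl d hd
    have h2 : 0 < d := Nat.pos_of_dvd_of_pos h1 hQ
    have h3 : 0 < Q / d := Nat.div_pos (Nat.le_of_dvd hQ h1) h2
    exact Nat.mul_pos hB h3
  · rw [Multiset.map_map]
    have h : ∀ d ∈ l, ((fun n : ℕ => (1 : ℚ) / n) ∘ fun d => B * (Q / d)) d
        = (d : ℚ) * (1 / (B * Q)) := by
      intro d hd
      have h1 := hl d hd
      have h2 : 0 < d := Nat.pos_of_dvd_of_pos h1 hQ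
      obtain ⟨c, hc⟩ := h1
      have hc0 : 0 < c := by
        rcases Nat.eq_zero_or_pos c with h | h
        · subst h; simp at hc; omega
        · exact h
      have h4 : Q / d = c := by rw [hc]; exact Nat.mul_div_cancel_left c h2
      have hBq : (B : ℚ) ≠ 0 := by positivity
      have hdq : (d : ℚ) ≠ 0 := by positivity
      have hcq : (c : ℚ) ≠ 0 := by positivity
      simp only [Function.comp]
      rw [h4, hc]
      push_cast
      field_simp
    rw [Multiset.map_congr rfl h, Multiset.sum_map_mul_right]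
    have h5 : (l.map fun i : ℕ => (i : ℚ)).sum = (l.sum : ℚ) := by
      rw [Nat.cast_multiset_sum]
    rw [h5]
    ring

/-- If `v` divides a sum of divisors of `Q` then `v / (B * Q)` is a short sum. -/
lemma U.of_dvd_sum (l : Multiset ℕ) (v B Q : ℕ) (hv : 0 < v) (hB : 0 < B) (hQ : 0 < Q)
    (hl : ∀ d ∈ l, d ∣ Q) (hne : l ≠ 0) (hdvd : v ∣ l.sum) :
    U l.card ((v : ℚ) / (B * Q)) := by
  obtain ⟨c, hc⟩ := hdvd
  have hsum : 0 < l.sum := by
    obtain ⟨d, hd⟩ := Multiset.exists_mem_of_ne_zero hne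
    have h2 : 0 < d := Nat.pos_of_dvd_of_pos (hl d hd) hQ
    exact lt_of_lt_of_le h2 (Multiset.le_sum_of_mem hd)
  have hc0 : 0 < c := by
    rcases Nat.eq_zero_or_pos c with h | h
    · subst h; simp at hc; omega
    · exact h
  have h := U.of_divisors l (c * B) Q (Nat.mul_pos hc0 hB) hQ hl
  have hBq : (B : ℚ) ≠ 0 := by positivity
  have hQq : (Q : ℚ) ≠ 0 := by positivity
  have hcq : (c : ℚ) ≠ 0 := by positivity
  have : ((v : ℚ) / (B * Q)) = (l.sum : ℚ) / ((c * B : ℕ) * Q) := by
    rw [hc]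
    push_cast
    field_simp
  rw [this]
  exact h

/-- representations of `q` with at most `k` terms -/
def Rep (k : ℕ) (q : ℚ) : Set (Multiset ℕ) :=
  {l | l.card ≤ k ∧ (∀ n ∈ l, 1 ≤ n) ∧ (l.map fun n : ℕ => (1 : ℚ) / n).sum = q}

lemma sum_pos_of_ne {l : Multiset ℕ} (h : ∀ n ∈ l, 1 ≤ n) (hne : l ≠ 0) :
    0 < (l.map fun n : ℕ => (1 : ℚ) / n).sum := by
  obtain ⟨d, hd⟩ := Multiset.exists_mem_of_ne_zero hne
  obtain ⟨t, rfl⟩ := Multiset.exists_cons_of_mem hd
  rw [Multiset.map_cons, Multiset.sum_cons]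
  have h1 : (0 : ℚ) < 1 / d := by
    have := h d hd
    positivity
  have h2 : 0 ≤ (t.map fun n : ℕ => (1 : ℚ) / n).sum := by
    apply Multiset.sum_nonneg
    intro x hx
    obtain ⟨n, _, rfl⟩ := Multiset.mem_map.mp hx
    positivity
  linarith

lemma rep_finite (k : ℕ) : ∀ q : ℚ, (Rep k q).Finite := by
  induction k with
  | zero =>
    intro q
    refine Set.Finite.subset (Set.finite_singleton 0) ?_
    intro l hl
    have h1 : l.card ≤ 0 := hl.1
    have h2 : l = 0 := Multiset.card_eq_zero.mp (by omega)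
    exact h2
  | succ k ih =>
    intro q
    by_cases hq : q ≤ 0
    · refine Set.Finite.subset (Set.finite_singleton 0) ?_
      intro l hl
      by_contra hne
      have h1 := sum_pos_of_ne hl.2.1 hne
      rw [hl.2.2] at h1
      linarith
    · push Not at hq
      set N := ⌊((k + 1 : ℕ) : ℚ) / q⌋₊ with hN
      have hfin : (⋃ n ∈ Finset.range (N + 1),
          (fun t : Multiset ℕ => n ::ₘ t) '' (Rep k (q - (1 : ℚ) / n))).Finite := by
        refine Set.Finite.biUnion (Finset.finite_toSet _) fun n _ => (ih _).image _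
      refine Set.Finite.subset hfin ?_
      intro l hl
      obtain ⟨h1, h2, h3⟩ := hl
      have hne : l ≠ 0 := by
        rintro rfl
        simp at h3
        linarith
      have hex : ∃ n ∈ l, (n : ℚ) * q ≤ ((k + 1 : ℕ) : ℚ) := by
        by_contra hcon
        push Not at hcon
        have hk : (0 : ℚ) < ((k + 1 : ℕ) : ℚ) := by positivity
        have hlt : (l.map fun n : ℕ => (1 : ℚ) / n).sum < (l.map fun _ : ℕ => q / ((k + 1 : ℕ) : ℚ)).sum := by
          apply Multiset.sum_lt_sum_of_nonempty hne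
          intro n hn
          have hn1 : (0 : ℚ) < n := by
            have := h2 n hn
            positivity
          rw [div_lt_div_iff₀ hn1 hk]
          have := hcon n hn
          linarith
        rw [h3, Multiset.map_const', Multiset.sum_replicate, nsmul_eq_mul] at hlt
        have h4 : (l.card : ℚ) ≤ ((k + 1 : ℕ) : ℚ) := by exact_mod_cast h1
        have h5 : (l.card : ℚ) * (q / ((k + 1 : ℕ) : ℚ)) ≤ q := by
          calc (l.card : ℚ) * (q / ((k + 1 : ℕ) : ℚ)) ≤ ((k + 1 : ℕ) : ℚ) * (q / ((k + 1 : ℕ) : ℚ)) := by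
                gcongr
            _ = q := by field_simp
        linarith
      obtain ⟨n, hn, hnq⟩ := hex
      have hnN : n ≤ N := by
        apply Nat.le_floor
        rw [le_div_iff₀ hq]
        exact hnq
      obtain ⟨t, rfl⟩ := Multiset.exists_cons_of_mem hn
      simp only [Set.mem_iUnion]
      refine ⟨n, Finset.mem_range.mpr (by omega), t, ⟨?_, ?_, ?_⟩, rfl⟩
      · rw [Multiset.card_cons] at h1; omega
      · intro m hm
        exact h2 m (Multiset.mem_cons_of_mem hm)
      · rw [Multiset.map_cons, Multiset.sum_cons] at h3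
        linarith

/-- Distinctness lemma (Takenouchi): repetitions can be removed without more terms. -/
lemma U.distinct {k : ℕ} {q : ℚ} (h : U k q) (h1 : q < 1) :
    ∃ S : Finset ℕ, S.card ≤ k ∧ (∀ n ∈ S, 2 ≤ n) ∧ ∑ n ∈ S, (1 : ℚ) / n = q := by
  classical
  have hex : ∃ j, ∃ l ∈ Rep k q, l.card = j := by
    obtain ⟨l, hl⟩ := h
    exact ⟨_, l, hl, rfl⟩
  set k0 := Nat.find hex with hk0
  have hspec := Nat.find_spec hex
  have hmin : ∀ l ∈ Rep k q, k0 ≤ l.card := fun l hl => Nat.find_min' hex ⟨l, hl, rfl⟩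
  set R : Set (Multiset ℕ) := {l | l ∈ Rep k q ∧ l.card = k0} with hR
  have hRfin : R.Finite := (rep_finite k q).subset fun l hl => hl.1
  have hRne : R.Nonempty := by
    obtain ⟨l, hl, hl'⟩ := hspec
    exact ⟨l, hl, hl'⟩
  obtain ⟨l, hl, hmax⟩ := Set.exists_max_image R
    (fun l => (l.map fun n : ℕ => ((1 : ℚ) / n) ^ 2).sum) hRfin hRne
  obtain ⟨⟨hc, hpos, hsum⟩, hcard⟩ := hl
  -- entries are at least two
  have hterm : ∀ t : Multiset ℕ, 0 ≤ (t.map fun n : ℕ => (1 : ℚ) / n).sum := by
    intro t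
    apply Multiset.sum_nonneg
    intro x hx
    obtain ⟨n, _, rfl⟩ := Multiset.mem_map.mp hx
    positivity
  have htwo : ∀ n ∈ l, 2 ≤ n := by
    intro n hn
    have hn1 := hpos n hn
    by_contra hlt
    have hn1' : n = 1 := by omega
    subst hn1'
    obtain ⟨t, ht⟩ := Multiset.exists_cons_of_mem hn
    rw [ht, Multiset.map_cons, Multiset.sum_cons] at hsum
    have := hterm t
    have h11 : (1 : ℚ) / ((1 : ℕ) : ℚ) = 1 := by norm_num
    rw [h11] at hsum
    linarith
  have hnodup : l.Nodup := by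
    rw [Multiset.nodup_iff_le]
    intro n hle
    obtain ⟨t, ht⟩ := Multiset.le_iff_exists_add.mp hle
    have hl2 : l = n ::ₘ n ::ₘ t := by
      rw [ht]; simp
    have hn : n ∈ l := by rw [hl2]; simp
    have hn2 := htwo n hn
    have hsum2 : (1 : ℚ) / n + ((1 : ℚ) / n + (t.map fun n : ℕ => (1 : ℚ) / n).sum) = q := by
      rw [← hsum, hl2, Multiset.map_cons, Multiset.sum_cons, Multiset.map_cons, Multiset.sum_cons]
    have hcard2 : t.card + 2 = k0 := by
      rw [← hcard, hl2]; simp
    have hpost : ∀ m ∈ t, 1 ≤ m := fun m hm => hpos m (by rw [hl2]; simp [hm])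
    rcases Nat.even_or_odd' n with ⟨m, hm | hm⟩
    · -- even case
      have hm1 : 1 ≤ m := by omega
      have hmq : (m : ℚ) ≠ 0 := by positivity
      have hmem : (m ::ₘ t) ∈ Rep k q := by
        refine ⟨?_, ?_, ?_⟩
        · rw [Multiset.card_cons]; omega
        · intro j hj
          rcases Multiset.mem_cons.mp hj with rfl | hj
          · exact hm1
          · exact hpost j hj
        · rw [Multiset.map_cons, Multiset.sum_cons, ← hsum2, hm]
          push_cast
          field_simp
          ring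
      have := hmin _ hmem
      rw [Multiset.card_cons] at this
      omega
    · -- odd case
      have hm1 : 1 ≤ m := by omega
      have hmq : (0 : ℚ) < m := by positivity
      have hnq : (n : ℚ) = 2 * m + 1 := by rw [hm]; push_cast; ring
      have hmem : ((m + 1) ::ₘ (n * (m + 1)) ::ₘ t) ∈ R := by
        refine ⟨⟨?_, ?_, ?_⟩, ?_⟩
        · rw [Multiset.card_cons, Multiset.card_cons]; omega
        · intro j hj
          rcases Multiset.mem_cons.mp hj with rfl | hj
          · omega
          rcases Multiset.mem_cons.mp hj with rfl | hj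
          · exact Nat.mul_pos (by omega) (by omega)
          · exact hpost j hj
        · rw [Multiset.map_cons, Multiset.sum_cons, Multiset.map_cons, Multiset.sum_cons, ← hsum2]
          have h2 : (0 : ℚ) < 2 * m + 1 := by positivity
          have h3 : (0 : ℚ) < m + 1 := by positivity
          push_cast
          rw [hnq]
          field_simp
          ring
        · rw [Multiset.card_cons, Multiset.card_cons]; omega
      have hle2 := hmax _ hmem
      simp only [hl2, Multiset.map_cons, Multiset.sum_cons] at hle2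
      exfalso
      have h2 : (0 : ℚ) < 2 * m + 1 := by positivity
      have h3 : (0 : ℚ) < m + 1 := by positivity
      push_cast at hle2
      rw [hnq] at hle2
      have h4 : (1 / (2 * (m : ℚ) + 1)) ^ 2 + (1 / (2 * (m : ℚ) + 1)) ^ 2
          < (1 / ((m : ℚ) + 1)) ^ 2 + (1 / ((2 * (m : ℚ) + 1) * (m + 1))) ^ 2 := by
        have e1 : (1 / ((m : ℚ) + 1)) ^ 2 + (1 / ((2 * (m : ℚ) + 1) * (m + 1))) ^ 2
            - ((1 / (2 * (m : ℚ) + 1)) ^ 2 + (1 / (2 * (m : ℚ) + 1)) ^ 2)
            = 2 * m ^ 2 / ((2 * m + 1) ^ 2 * (m + 1) ^ 2) := by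
          field_simp
          ring
        have e2 : (0 : ℚ) < 2 * m ^ 2 / ((2 * m + 1) ^ 2 * (m + 1) ^ 2) := by positivity
        linarith
      linarith
  refine ⟨l.toFinset, ?_, ?_, ?_⟩
  · rw [Multiset.toFinset_card_of_nodup hnodup]; exact hc
  · intro n hn
    exact htwo n (Multiset.mem_toFinset.mp hn)
  · rw [Finset.sum, Multiset.toFinset_val, Multiset.dedup_eq_self.mpr hnodup, hsum]

end P012
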